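import Crest.Agent.R056.Fourier

/-! Row 56: p-biased Bonami lemma and level inequality. OWNER: helper425. -/

set_option autoImplicit false

namespace Crest.Agent.R056

open Finset Crest.FinProb

variable {ι : Type*} [Fintype ι] [DecidableEq ι] {p : ℝ}

lemma chi_insert (p : ℝ) {e : ι} {S : Finset ι} (he : e ∉ S) (ω : ι → Bool) :
    chi p (insert e S) ω = phi p (ω e) * chi p S ω := by
  unfold chi
  rw [Finset.prod_insert he]

lemma chi_update (p : ℝ) {e : ι} {S : Finset ι} (he : e ∉ S) (ω : ι → Bool) (b : Bool) :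
    chi p S (Function.update ω e b) = chi p S ω := by
  unfold chi
  refine Finset.prod_congr rfl fun i hi => ?_
  have : i ≠ e := fun h => he (h ▸ hi)
  simp [this]

lemma one_phi_mean (p : ℝ) : p * phi p true + (1 - p) * phi p false = 0 := by
  unfold phi
  simp
  ring

lemma one_phi_sq (hp0 : 0 < p) (hp1 : p < 1) :
    p * phi p true ^ 2 + (1 - p) * phi p false ^ 2 = 1 := by
  have h1 : (0 : ℝ) < 1 - p := by linarith
  have hq : 0 < p * (1 - p) := mul_pos hp0 h1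
  unfold phi
  simp only [div_pow, Real.sq_sqrt hq.le, if_true, Bool.false_eq_true, if_false]
  field_simp
  ring

lemma one_phi_four (hp0 : 0 < p) (hp1 : p < 1) :
    p * phi p true ^ 4 + (1 - p) * phi p false ^ 4 ≤ 1 / (p * (1 - p)) := by
  have h1 : (0 : ℝ) < 1 - p := by linarith
  have hq : 0 < p * (1 - p) := mul_pos hp0 h1
  have h4 : Real.sqrt (p * (1 - p)) ^ 4 = (p * (1 - p)) ^ 2 := by
    rw [show (4 : ℕ) = 2 * 2 by norm_num, pow_mul, Real.sq_sqrt hq.le]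
  unfold phi
  simp only [div_pow, h4, if_true, Bool.false_eq_true, if_false]
  have : p * ((1 - p) ^ 4 / (p * (1 - p)) ^ 2) + (1 - p) * ((-p) ^ 4 / (p * (1 - p)) ^ 2) =
      ((1 - p) ^ 3 + p ^ 3) / (p * (1 - p)) := by
    field_simp
  rw [this]
  apply div_le_div_of_nonneg_right _ hq.le
  nlinarith [hq]

lemma inv_pq_ge (hp0 : 0 < p) (hp1 : p < 1) : 4 ≤ 1 / (p * (1 - p)) := by
  have h1 : (0 : ℝ) < 1 - p := by linarith
  have hq : 0 < p * (1 - p) := mul_pos hp0 h1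
  rw [le_div_iff₀ hq]
  nlinarith [sq_nonneg (p - 1 / 2)]

/-- weighted Bonami inequality: `E g⁴ ≤ (∑ κ^{|S|} c_S²)²` for `κ ≥ 4`, `κ² ≥ 3/(p(1-p))`. -/
theorem bonami_weighted (hp0 : 0 < p) (hp1 : p < 1) (κ : ℝ) (hκ4 : 4 ≤ κ)
    (hκ : 3 / (p * (1 - p)) ≤ κ ^ 2) (W : Finset ι) : ∀ (c : Finset ι → ℝ),
    Ex p (fun ω => (∑ S ∈ W.powerset, c S * chi p S ω) ^ 4)
      ≤ (∑ S ∈ W.powerset, κ ^ S.card * c S ^ 2) ^ 2 := by
  induction W using Finset.induction_on with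
  | empty =>
    intro c
    simp only [powerset_empty, sum_singleton, chi_empty, card_empty, pow_zero, mul_one, one_mul]
    have h := Ex_const_mul (p := p) (c ∅ ^ 4) (fun _ : ι → Bool => (1 : ℝ))
    simp only [mul_one] at h
    rw [h, Ex_one]
    apply le_of_eq; ring
  | insert e W he IH =>
    intro c
    set g0 : (ι → Bool) → ℝ := fun ω => ∑ S ∈ W.powerset, c S * chi p S ω with hg0
    set g1 : (ι → Bool) → ℝ := fun ω => ∑ S ∈ W.powerset, c (insert e S) * chi p S ω with hg1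
    set B0 : ℝ := ∑ S ∈ W.powerset, κ ^ S.card * c S ^ 2 with hB0
    set B1 : ℝ := ∑ S ∈ W.powerset, κ ^ S.card * c (insert e S) ^ 2 with hB1
    have hκ0 : 0 ≤ κ := by linarith
    have hB0n : 0 ≤ B0 := Finset.sum_nonneg fun S _ => mul_nonneg (pow_nonneg hκ0 _) (sq_nonneg _)
    have hB1n : 0 ≤ B1 := Finset.sum_nonneg fun S _ => mul_nonneg (pow_nonneg hκ0 _) (sq_nonneg _)
    have hmem : ∀ S ∈ W.powerset, e ∉ S := fun S hS h => he (Finset.mem_powerset.mp hS h)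
    have hsplit : ∀ ω, (∑ S ∈ (insert e W).powerset, c S * chi p S ω) =
        g0 ω + phi p (ω e) * g1 ω := by
      intro ω
      rw [Finset.sum_powerset_insert he, hg0, hg1]
      congr 1
      rw [Finset.mul_sum]
      refine Finset.sum_congr rfl fun S hS => ?_
      rw [chi_insert p (hmem S hS)]
      ring
    have hsum : (∑ S ∈ (insert e W).powerset, κ ^ S.card * c S ^ 2) = B0 + κ * B1 := by
      rw [Finset.sum_powerset_insert he, hB0, hB1]
      congr 1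
      rw [Finset.mul_sum]
      refine Finset.sum_congr rfl fun S hS => ?_
      rw [Finset.card_insert_of_notMem (hmem S hS), pow_succ]
      ring
    have hu0 : ∀ ω b, g0 (Function.update ω e b) = g0 ω := by
      intro ω b
      refine Finset.sum_congr rfl fun S hS => ?_
      rw [chi_update p (hmem S hS)]
    have hu1 : ∀ ω b, g1 (Function.update ω e b) = g1 ω := by
      intro ω b
      refine Finset.sum_congr rfl fun S hS => ?_
      rw [chi_update p (hmem S hS)]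
    have IH0 : Ex p (fun ω => g0 ω ^ 4) ≤ B0 ^ 2 := IH c
    have IH1 : Ex p (fun ω => g1 ω ^ 4) ≤ B1 ^ 2 := IH (fun S => c (insert e S))
    have hnn : ∀ g : (ι → Bool) → ℝ, 0 ≤ Ex p (fun ω => g ω ^ 4) := fun g =>
      Ex_nonneg hp0.le hp1.le fun ω => by positivity
    have hCS : Ex p (fun ω => g0 ω ^ 2 * g1 ω ^ 2) ≤ B0 * B1 := by
      have h1 := Ex_mul_sq_le hp0.le hp1.le (fun ω => g0 ω ^ 2) (fun ω => g1 ω ^ 2)
      have e4 : ∀ g : (ι → Bool) → ℝ, (fun ω => (g ω ^ 2) ^ 2) = (fun ω => g ω ^ 4) := by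
        intro g; funext ω; ring
      simp only [e4] at h1
      have h2 : Ex p (fun ω => g0 ω ^ 2 * g1 ω ^ 2) ^ 2 ≤ (B0 * B1) ^ 2 := by
        calc _ ≤ Ex p (fun ω => g0 ω ^ 4) * Ex p (fun ω => g1 ω ^ 4) := h1
          _ ≤ B0 ^ 2 * B1 ^ 2 := mul_le_mul IH0 IH1 (hnn g1) (sq_nonneg _)
          _ = (B0 * B1) ^ 2 := by ring
      exact abs_le_of_sq_le_sq' h2 (mul_nonneg hB0n hB1n) |>.2
    have hpt : ∀ ω, (g0 ω + phi p (ω e) * g1 ω) ^ 4 ≤
        g0 ω ^ 4 + (4 * (phi p (ω e) * (g0 ω ^ 3 * g1 ω)) +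
          (8 * (phi p (ω e) ^ 2 * (g0 ω ^ 2 * g1 ω ^ 2)) +
            3 * (phi p (ω e) ^ 4 * g1 ω ^ 4))) := by
      intro ω
      nlinarith [sq_nonneg (phi p (ω e) * g0 ω * g1 ω - phi p (ω e) ^ 2 * g1 ω ^ 2)]
    have hm1 : Ex p (fun ω => phi p (ω e) * (g0 ω ^ 3 * g1 ω)) = 0 := by
      rw [Ex_coord_mul e (fun b => phi p b) (fun ω => g0 ω ^ 3 * g1 ω)
        (fun ω b => by simp only [hu0, hu1]), one_phi_mean, zero_mul]
    have hm2 : Ex p (fun ω => phi p (ω e) ^ 2 * (g0 ω ^ 2 * g1 ω ^ 2)) =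
        Ex p (fun ω => g0 ω ^ 2 * g1 ω ^ 2) := by
      rw [Ex_coord_mul e (fun b => phi p b ^ 2) (fun ω => g0 ω ^ 2 * g1 ω ^ 2)
        (fun ω b => by simp only [hu0, hu1]), one_phi_sq hp0 hp1, one_mul]
    have hm4 : Ex p (fun ω => phi p (ω e) ^ 4 * g1 ω ^ 4) ≤
        1 / (p * (1 - p)) * Ex p (fun ω => g1 ω ^ 4) := by
      rw [Ex_coord_mul e (fun b => phi p b ^ 4) (fun ω => g1 ω ^ 4)
        (fun ω b => by simp only [hu1])]
      exact mul_le_mul_of_nonneg_right (one_phi_four hp0 hp1) (hnn g1)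
    have hu : 0 ≤ 1 / (p * (1 - p)) := by linarith [inv_pq_ge hp0 hp1]
    have hκ' : 3 * (1 / (p * (1 - p))) ≤ κ ^ 2 := by
      have : 3 * (1 / (p * (1 - p))) = 3 / (p * (1 - p)) := by ring
      rw [this]; exact hκ
    calc Ex p (fun ω => (∑ S ∈ (insert e W).powerset, c S * chi p S ω) ^ 4)
        = Ex p (fun ω => (g0 ω + phi p (ω e) * g1 ω) ^ 4) := by simp only [hsplit]
      _ ≤ Ex p (fun ω => g0 ω ^ 4 + (4 * (phi p (ω e) * (g0 ω ^ 3 * g1 ω)) +
          (8 * (phi p (ω e) ^ 2 * (g0 ω ^ 2 * g1 ω ^ 2)) +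
            3 * (phi p (ω e) ^ 4 * g1 ω ^ 4)))) := Ex_mono hp0.le hp1.le hpt
      _ = Ex p (fun ω => g0 ω ^ 4) + (4 * Ex p (fun ω => phi p (ω e) * (g0 ω ^ 3 * g1 ω)) +
          (8 * Ex p (fun ω => phi p (ω e) ^ 2 * (g0 ω ^ 2 * g1 ω ^ 2)) +
            3 * Ex p (fun ω => phi p (ω e) ^ 4 * g1 ω ^ 4))) := by
          rw [Ex_add, Ex_add, Ex_add, Ex_const_mul, Ex_const_mul, Ex_const_mul]
      _ ≤ B0 ^ 2 + (4 * 0 + (8 * (B0 * B1) + 3 * (1 / (p * (1 - p)) * B1 ^ 2))) := by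
          rw [hm1, hm2]
          have := mul_le_mul_of_nonneg_left IH1 hu
          linarith
      _ ≤ (B0 + κ * B1) ^ 2 := by
          nlinarith [mul_nonneg hB0n hB1n, sq_nonneg B1, mul_le_mul_of_nonneg_right hκ' (sq_nonneg B1),
            mul_nonneg (sub_nonneg.mpr hκ4) (mul_nonneg hB0n hB1n)]
      _ = _ := by rw [hsum]

/-- (2,4)-Bonami lemma with constant `b = 4/(p(1-p)) ≥ 16`. -/
theorem bonami (hp0 : 0 < p) (hp1 : p < 1) (d : ℕ) (a : Finset ι → ℝ) :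
    Ex p (fun ω => (∑ S ∈ (univ : Finset (Finset ι)).filter (fun S => S.card ≤ d),
        a S * chi p S ω) ^ 4)
      ≤ (4 / (p * (1 - p))) ^ d *
        (∑ S ∈ (univ : Finset (Finset ι)).filter (fun S => S.card ≤ d), a S ^ 2) ^ 2 := by
  have h1 : (0 : ℝ) < 1 - p := by linarith
  have hq : 0 < p * (1 - p) := mul_pos hp0 h1
  have hu := inv_pq_ge hp0 hp1
  have hK : (16 : ℝ) ≤ 4 / (p * (1 - p)) := by
    have : 4 / (p * (1 - p)) = 4 * (1 / (p * (1 - p))) := by ring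
    linarith
  set κ : ℝ := Real.sqrt (4 / (p * (1 - p))) with hκdef
  have hκsq : κ ^ 2 = 4 / (p * (1 - p)) := Real.sq_sqrt (by linarith)
  have hκ4 : 4 ≤ κ := by
    rw [hκdef]
    apply Real.le_sqrt_of_sq_le
    linarith
  have hκ3 : 3 / (p * (1 - p)) ≤ κ ^ 2 := by
    rw [hκsq]
    exact div_le_div_of_nonneg_right (by norm_num) hq.le
  have hκ1 : 1 ≤ κ := by linarith
  have h := bonami_weighted hp0 hp1 κ hκ4 hκ3 (univ : Finset ι)
    (fun S => if S.card ≤ d then a S else 0)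
  simp only [Finset.powerset_univ] at h
  have e1 : ∀ ω : ι → Bool, (∑ S : Finset ι, (if S.card ≤ d then a S else 0) * chi p S ω) =
      ∑ S ∈ (univ : Finset (Finset ι)).filter (fun S => S.card ≤ d), a S * chi p S ω := by
    intro ω
    rw [Finset.sum_filter]
    refine Finset.sum_congr rfl fun S _ => ?_
    split_ifs <;> simp
  simp only [e1] at h
  refine h.trans ?_
  have e2 : (∑ S : Finset ι, κ ^ S.card * (if S.card ≤ d then a S else 0) ^ 2) ≤
      κ ^ d * ∑ S ∈ (univ : Finset (Finset ι)).filter (fun S => S.card ≤ d), a S ^ 2 := by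
    rw [Finset.sum_filter, Finset.mul_sum]
    refine Finset.sum_le_sum fun S _ => ?_
    split_ifs with hS
    · exact mul_le_mul_of_nonneg_right (pow_le_pow_right₀ hκ1 hS) (sq_nonneg _)
    · simp
  have e3 : 0 ≤ ∑ S : Finset ι, κ ^ S.card * (if S.card ≤ d then a S else 0) ^ 2 :=
    Finset.sum_nonneg fun S _ => mul_nonneg (pow_nonneg (by linarith) _) (sq_nonneg _)
  calc _ ≤ (κ ^ d * ∑ S ∈ (univ : Finset (Finset ι)).filter (fun S => S.card ≤ d), a S ^ 2) ^ 2 :=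
        pow_le_pow_left₀ e3 e2 2
    _ = _ := by rw [mul_pow, ← hκsq, ← pow_mul, ← pow_mul, mul_comm d 2]

/-- Level inequality, squared form: if `g` vanishes off `Z` and `μ(Z) ≤ s` then
`(mass of g on levels ≤ d)^2 ≤ s b^d (E g^2)^2`. -/
theorem level_ineq_sq (hp0 : 0 < p) (hp1 : p < 1) (d : ℕ) (g : (ι → Bool) → ℝ)
    (Z : (ι → Bool) → Prop) [DecidablePred Z] (hZ : ∀ ω, ¬ Z ω → g ω = 0) (s : ℝ)
    (hs : Ex p (fun ω => if Z ω then 1 else 0) ≤ s) :
    lowMass p d g ^ 2 ≤ s * (4 / (p * (1 - p))) ^ d * Ex p (fun ω => g ω ^ 2) ^ 2 := by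
  have h1 : (0 : ℝ) < 1 - p := by linarith
  have hq : 0 < p * (1 - p) := mul_pos hp0 h1
  set b : ℝ := (4 / (p * (1 - p))) ^ d with hb
  have hb0 : 0 ≤ b := by positivity
  set X : ℝ := lowMass p d g with hX
  have hX0 : 0 ≤ X := lowMass_nonneg d g
  set q : (ι → Bool) → ℝ := fun ω =>
    ∑ S ∈ (univ : Finset (Finset ι)).filter (fun S => S.card ≤ d), hat p g S * chi p S ω with hqdef
  -- X = E[g q]
  have hXgq : X = Ex p (fun ω => g ω * q ω) := by
    have : ∀ ω, g ω * q ω = ∑ S ∈ (univ : Finset (Finset ι)).filter (fun S => S.card ≤ d),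
        hat p g S * (g ω * chi p S ω) := by
      intro ω
      rw [hqdef, Finset.mul_sum]
      refine Finset.sum_congr rfl fun S _ => by ring
    simp only [this]
    rw [Ex_sum, hX]
    unfold lowMass
    refine Finset.sum_congr rfl fun S _ => ?_
    rw [Ex_const_mul]
    unfold hat
    ring
  have hq4 : Ex p (fun ω => q ω ^ 4) ≤ b * X ^ 2 := bonami hp0 hp1 d (hat p g)
  set z : (ι → Bool) → ℝ := fun ω => if Z ω then 1 else 0 with hz
  have hgz : ∀ ω, g ω * q ω = g ω * (z ω * q ω) := by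
    intro ω
    by_cases h : Z ω
    · simp [hz, h]
    · simp [hZ ω h]
  have hCS1 : X ^ 2 ≤ Ex p (fun ω => g ω ^ 2) * Ex p (fun ω => (z ω * q ω) ^ 2) := by
    rw [hXgq]
    simp only [hgz]
    exact Ex_mul_sq_le hp0.le hp1.le g (fun ω => z ω * q ω)
  have hzz : ∀ ω, z ω ^ 2 = z ω := by
    intro ω
    simp only [hz]
    split_ifs <;> norm_num
  have hCS2 : Ex p (fun ω => (z ω * q ω) ^ 2) ^ 2 ≤ s * (b * X ^ 2) := by
    have e1 : (fun ω => (z ω * q ω) ^ 2) = (fun ω => z ω * q ω ^ 2) := by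
      funext ω
      rw [mul_pow, hzz]
    rw [e1]
    have h2 := Ex_mul_sq_le hp0.le hp1.le z (fun ω => q ω ^ 2)
    have e2 : (fun ω => (q ω ^ 2) ^ 2) = (fun ω => q ω ^ 4) := by
      funext ω; ring
    simp only [hzz, e2] at h2
    have hz0 : 0 ≤ Ex p z := Ex_nonneg hp0.le hp1.le fun ω => by
      simp only [hz]; split_ifs <;> norm_num
    have hq40 : 0 ≤ Ex p (fun ω => q ω ^ 4) := Ex_nonneg hp0.le hp1.le fun ω => by positivity
    exact h2.trans (mul_le_mul hs hq4 hq40 (hz0.trans hs))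
  have hG0 : 0 ≤ Ex p (fun ω => g ω ^ 2) := Ex_nonneg hp0.le hp1.le fun ω => sq_nonneg _
  have hY0 : 0 ≤ Ex p (fun ω => (z ω * q ω) ^ 2) := Ex_nonneg hp0.le hp1.le fun ω => sq_nonneg _
  set G := Ex p (fun ω => g ω ^ 2) with hG
  set Y := Ex p (fun ω => (z ω * q ω) ^ 2) with hY
  -- X^4 ≤ G^2 Y^2 ≤ G^2 s b X^2
  have h4 : X ^ 2 * X ^ 2 ≤ (s * b * G ^ 2) * X ^ 2 := by
    have hh : (X ^ 2) ^ 2 ≤ (G * Y) ^ 2 := pow_le_pow_left₀ (sq_nonneg X) hCS1 2
    have hh2 : G ^ 2 * Y ^ 2 ≤ G ^ 2 * (s * (b * X ^ 2)) :=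
      mul_le_mul_of_nonneg_left hCS2 (sq_nonneg G)
    nlinarith [hh, hh2]
  rcases eq_or_lt_of_le (sq_nonneg X) with h0 | hpos
  · rw [← h0]
    have hz0 : 0 ≤ Ex p z := Ex_nonneg hp0.le hp1.le fun ω => by
      simp only [hz]; split_ifs <;> norm_num
    have hs0 : 0 ≤ s := hz0.trans hs
    positivity
  · exact le_of_mul_le_mul_right h4 hpos

/-- Level inequality. -/
theorem level_ineq (hp0 : 0 < p) (hp1 : p < 1) (d : ℕ) (g : (ι → Bool) → ℝ)
    (Z : (ι → Bool) → Prop) [DecidablePred Z] (hZ : ∀ ω, ¬ Z ω → g ω = 0) (κ : ℝ) (hκ : 0 ≤ κ)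
    (hs : Ex p (fun ω => if Z ω then 1 else 0) * (4 / (p * (1 - p))) ^ d ≤ κ ^ 2) :
    lowMass p d g ≤ κ * Ex p (fun ω => g ω ^ 2) := by
  have h := level_ineq_sq hp0 hp1 d g Z hZ _ le_rfl
  have hG0 : 0 ≤ Ex p (fun ω => g ω ^ 2) := Ex_nonneg hp0.le hp1.le fun ω => sq_nonneg _
  have h2 : lowMass p d g ^ 2 ≤ (κ * Ex p (fun ω => g ω ^ 2)) ^ 2 := by
    refine h.trans ?_
    rw [mul_pow]
    exact mul_le_mul_of_nonneg_right hs (sq_nonneg _)
  exact abs_le_of_sq_le_sq' h2 (mul_nonneg hκ hG0) |>.2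

/-- Level inequality with an `L¹`/`L²` right hand side, squared form:
`(mass of h on levels ≤ d)² ≤ b^d (E|h|)² E h²`. -/
theorem level_ineq_abs_sq (hp0 : 0 < p) (hp1 : p < 1) (d : ℕ) (h : (ι → Bool) → ℝ) :
    lowMass p d h ^ 2 ≤ (4 / (p * (1 - p))) ^ d * Ex p (fun ω => |h ω|) ^ 2 *
      Ex p (fun ω => h ω ^ 2) := by
  have h1 : (0 : ℝ) < 1 - p := by linarith
  have hq : 0 < p * (1 - p) := mul_pos hp0 h1
  set b : ℝ := (4 / (p * (1 - p))) ^ d with hb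
  have hb0 : 0 ≤ b := by positivity
  set X : ℝ := lowMass p d h with hX
  set q : (ι → Bool) → ℝ := fun ω =>
    ∑ S ∈ (univ : Finset (Finset ι)).filter (fun S => S.card ≤ d), hat p h S * chi p S ω with hqdef
  have hXgq : X = Ex p (fun ω => h ω * q ω) := by
    have : ∀ ω, h ω * q ω = ∑ S ∈ (univ : Finset (Finset ι)).filter (fun S => S.card ≤ d),
        hat p h S * (h ω * chi p S ω) := by
      intro ω
      rw [hqdef, Finset.mul_sum]
      refine Finset.sum_congr rfl fun S _ => by ring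
    simp only [this]
    rw [Ex_sum, hX]
    unfold lowMass
    refine Finset.sum_congr rfl fun S _ => ?_
    rw [Ex_const_mul]
    unfold hat
    ring
  have hq4 : Ex p (fun ω => q ω ^ 4) ≤ b * X ^ 2 := bonami hp0 hp1 d (hat p h)
  have hsq : ∀ ω, Real.sqrt |h ω| ^ 2 = |h ω| := fun ω => Real.sq_sqrt (abs_nonneg _)
  -- `X ≤ E |h| |q|`
  have hA0 : 0 ≤ Ex p (fun ω => |h ω|) := Ex_nonneg hp0.le hp1.le fun ω => abs_nonneg _
  have hG0 : 0 ≤ Ex p (fun ω => h ω ^ 2) := Ex_nonneg hp0.le hp1.le fun ω => sq_nonneg _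
  set A := Ex p (fun ω => |h ω|) with hA
  set G := Ex p (fun ω => h ω ^ 2) with hG
  set Y := Ex p (fun ω => |h ω| * q ω ^ 2) with hY
  have hY0 : 0 ≤ Y := Ex_nonneg hp0.le hp1.le fun ω => mul_nonneg (abs_nonneg _) (sq_nonneg _)
  have hX0 : 0 ≤ X := lowMass_nonneg d h
  have hle : X ≤ Ex p (fun ω => Real.sqrt |h ω| * (Real.sqrt |h ω| * |q ω|)) := by
    rw [hXgq]
    refine Ex_mono hp0.le hp1.le fun ω => ?_
    have : Real.sqrt |h ω| * (Real.sqrt |h ω| * |q ω|) = |h ω| * |q ω| := by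
      rw [← mul_assoc, ← sq, hsq]
    rw [this, ← abs_mul]
    exact le_abs_self _
  have hCS1 : X ^ 2 ≤ A * Y := by
    have h2 := Ex_mul_sq_le hp0.le hp1.le (fun ω => Real.sqrt |h ω|)
      (fun ω => Real.sqrt |h ω| * |q ω|)
    have e1 : (fun ω => Real.sqrt |h ω| ^ 2) = (fun ω => |h ω|) := by
      funext ω; exact hsq ω
    have e2 : (fun ω => (Real.sqrt |h ω| * |q ω|) ^ 2) = (fun ω => |h ω| * q ω ^ 2) := by
      funext ω; rw [mul_pow, hsq, sq_abs]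
    rw [e1, e2] at h2
    exact (pow_le_pow_left₀ hX0 hle 2).trans h2
  have hCS2 : Y ^ 2 ≤ G * (b * X ^ 2) := by
    have h2 := Ex_mul_sq_le hp0.le hp1.le (fun ω => |h ω|) (fun ω => q ω ^ 2)
    have e1 : (fun ω => |h ω| ^ 2) = (fun ω => h ω ^ 2) := by funext ω; exact sq_abs _
    have e2 : (fun ω => (q ω ^ 2) ^ 2) = (fun ω => q ω ^ 4) := by funext ω; ring
    rw [e1, e2] at h2
    exact h2.trans (mul_le_mul_of_nonneg_left hq4 hG0)
  have h4 : X ^ 2 * X ^ 2 ≤ (b * A ^ 2 * G) * X ^ 2 := by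
    have hh : (X ^ 2) ^ 2 ≤ (A * Y) ^ 2 := pow_le_pow_left₀ (sq_nonneg X) hCS1 2
    have hh2 : A ^ 2 * Y ^ 2 ≤ A ^ 2 * (G * (b * X ^ 2)) :=
      mul_le_mul_of_nonneg_left hCS2 (sq_nonneg A)
    nlinarith [hh, hh2]
  rcases eq_or_lt_of_le (sq_nonneg X) with h0 | hpos
  · rw [← h0]; positivity
  · exact le_of_mul_le_mul_right h4 hpos

/-- Level inequality with an `L¹`/`L²` right hand side. -/
theorem level_ineq_abs (hp0 : 0 < p) (hp1 : p < 1) (d : ℕ) (h : (ι → Bool) → ℝ) :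
    lowMass p d h ≤ Real.sqrt (4 / (p * (1 - p))) ^ d * Ex p (fun ω => |h ω|) *
      Real.sqrt (Ex p (fun ω => h ω ^ 2)) := by
  have h1 : (0 : ℝ) < 1 - p := by linarith
  have hq : 0 < p * (1 - p) := mul_pos hp0 h1
  have hA0 : 0 ≤ Ex p (fun ω => |h ω|) := Ex_nonneg hp0.le hp1.le fun ω => abs_nonneg _
  have hG0 : 0 ≤ Ex p (fun ω => h ω ^ 2) := Ex_nonneg hp0.le hp1.le fun ω => sq_nonneg _
  have hb0 : (0 : ℝ) ≤ 4 / (p * (1 - p)) := by positivity
  have hR : 0 ≤ Real.sqrt (4 / (p * (1 - p))) ^ d * Ex p (fun ω => |h ω|) *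
      Real.sqrt (Ex p (fun ω => h ω ^ 2)) := by positivity
  have h2 : lowMass p d h ^ 2 ≤ (Real.sqrt (4 / (p * (1 - p))) ^ d * Ex p (fun ω => |h ω|) *
      Real.sqrt (Ex p (fun ω => h ω ^ 2))) ^ 2 := by
    refine (level_ineq_abs_sq hp0 hp1 d h).trans (le_of_eq ?_)
    rw [mul_pow, mul_pow, Real.sq_sqrt hG0, ← pow_mul, mul_comm d 2, pow_mul, Real.sq_sqrt hb0]
  exact abs_le_of_sq_le_sq' h2 hR |>.2

end Crest.Agent.R056
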