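import Crest.Agent.R056.Defs2

/-! Row 56: combinatorics and numerics. OWNER: helper990. -/

set_option autoImplicit false

namespace Crest.Agent.R056

open Finset Crest.CombinatoricsR.HypergraphCube

variable {n r : ℕ}

theorem sum_degS (S : Finset (HyperedgeSlot n r)) : ∑ a, degS S a = r * S.card := by
  have h1 : ∀ a, degS S a = ∑ e ∈ S, if a ∈ e.1 then 1 else 0 := by
    intro a
    rw [degS, Finset.card_filter]
  simp_rw [h1]
  rw [Finset.sum_comm]
  have h2 : ∀ e ∈ S, (∑ a : Fin n, if a ∈ e.1 then 1 else 0) = r := by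
    intro e _
    rw [← Finset.card_filter]
    have : (univ.filter fun a : Fin n => a ∈ e.1) = e.1 := by ext; simp
    rw [this, e.2]
  rw [Finset.sum_congr rfl h2]
  simp [mul_comm]

theorem degS_eq_zero {S : Finset (HyperedgeSlot n r)} {a : Fin n} (ha : a ∉ verts S) :
    degS S a = 0 := by
  rw [degS, Finset.card_eq_zero, Finset.filter_eq_empty_iff]
  intro e he hae
  exact ha (by rw [verts, Finset.mem_biUnion]; exact ⟨e, he, hae⟩)

theorem card_verts_le (S : Finset (HyperedgeSlot n r)) : (verts S).card ≤ r * S.card := by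
  rw [verts]
  refine (Finset.card_biUnion_le).trans ?_
  rw [Finset.sum_congr rfl (fun e _ => e.2)]
  simp [mul_comm]

theorem degS_le_pow (S : Finset (HyperedgeSlot n r)) (a : Fin n) :
    degS S a ≤ (verts S).card ^ (r - 1) := by
  by_cases ha : a ∈ verts S
  · have h1 : (S.filter (fun e => a ∈ e.1)).card ≤
        (((verts S).erase a).powersetCard (r - 1)).card := by
      apply Finset.card_le_card_of_injOn (fun e => e.1.erase a)
      · intro e he
        simp only [Finset.coe_filter, Set.mem_setOf_eq] at he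
        rw [Finset.mem_coe, Finset.mem_powersetCard]
        refine ⟨?_, ?_⟩
        · apply Finset.erase_subset_erase
          intro x hx
          rw [verts, Finset.mem_biUnion]
          exact ⟨e, he.1, hx⟩
        · rw [Finset.card_erase_of_mem he.2, e.2]
      · intro e he e' he' hee
        simp only [Finset.coe_filter, Set.mem_setOf_eq] at he he'
        apply Subtype.ext
        have := congrArg (insert a) hee
        simpa [Finset.insert_erase he.2, Finset.insert_erase he'.2] using this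
    rw [Finset.card_powersetCard, Finset.card_erase_of_mem ha] at h1
    calc degS S a ≤ ((verts S).card - 1).choose (r - 1) := h1
      _ ≤ ((verts S).card - 1) ^ (r - 1) := Nat.choose_le_pow _ _
      _ ≤ (verts S).card ^ (r - 1) := Nat.pow_le_pow_left (Nat.sub_le _ _) _
  · rw [degS_eq_zero ha]; exact Nat.zero_le _

/-- If every covered vertex has degree at least `s + 1` then `(s+1)^r ≤ (r|S|)^(r-1)`.
Proof: `v = |verts S|`: `v (s+1) ≤ r|S|` and `s + 1 ≤ C(v-1, r-1) ≤ v^(r-1)`. -/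
theorem comb_degree (hr : 2 ≤ r) (S : Finset (HyperedgeSlot n r)) (hS : S.Nonempty) (s : ℕ)
    (h : ∀ a ∈ verts S, s + 1 ≤ degS S a) : (s + 1) ^ r ≤ (r * S.card) ^ (r - 1) := by
  obtain ⟨e, he⟩ := hS
  have hne : e.1.Nonempty := by
    rw [← Finset.card_pos, e.2]; omega
  obtain ⟨a, ha⟩ := hne
  have hav : a ∈ verts S := by
    rw [verts, Finset.mem_biUnion]; exact ⟨e, he, ha⟩
  have h1 : s + 1 ≤ (verts S).card ^ (r - 1) := (h a hav).trans (degS_le_pow S a)
  have h2 : (verts S).card * (s + 1) ≤ r * S.card := by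
    rw [← sum_degS]
    calc (verts S).card * (s + 1) = ∑ _a ∈ verts S, (s + 1) := by
          rw [Finset.sum_const, smul_eq_mul]
      _ ≤ ∑ a ∈ verts S, degS S a := Finset.sum_le_sum h
      _ ≤ ∑ a, degS S a := Finset.sum_le_sum_of_subset (Finset.subset_univ _)
  obtain ⟨k, rfl⟩ : ∃ k, r = k + 1 := ⟨r - 1, by omega⟩
  simp only [Nat.add_sub_cancel] at h1 ⊢
  calc (s + 1) ^ (k + 1) = (s + 1) * (s + 1) ^ k := by ring
    _ ≤ (verts S).card ^ k * (s + 1) ^ k := Nat.mul_le_mul_right _ h1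
    _ = ((verts S).card * (s + 1)) ^ k := by rw [mul_pow]
    _ ≤ ((k + 1) * S.card) ^ k := Nat.pow_le_pow_left h2 k

/-- Real-exponent form. -/
theorem comb_degree_rpow (hr : 2 ≤ r) (S : Finset (HyperedgeSlot n r)) (hS : S.Nonempty)
    (s : ℕ) (h : ∀ a ∈ verts S, s + 1 ≤ degS S a) :
    ((s : ℝ) + 1) ^ ((r : ℝ) / ((r : ℝ) - 1)) ≤ r * S.card := by
  have h1 := comb_degree hr S hS s h
  have hr' : (2 : ℝ) ≤ r := by exact_mod_cast hr
  have hr1 : (0 : ℝ) < (r : ℝ) - 1 := by linarith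
  have h2 : ((s : ℝ) + 1) ^ (r : ℝ) ≤ ((r : ℝ) * S.card) ^ ((r : ℝ) - 1) := by
    have h3 : (((s + 1) ^ r : ℕ) : ℝ) ≤ (((r * S.card) ^ (r - 1) : ℕ) : ℝ) := by
      exact_mod_cast h1
    push_cast at h3
    rw [Real.rpow_natCast]
    have h4 : ((r : ℝ) - 1) = ((r - 1 : ℕ) : ℝ) := by
      rw [Nat.cast_sub (by omega)]; simp
    rw [h4, Real.rpow_natCast]
    exact h3
  have h0 : (0 : ℝ) ≤ (r : ℝ) * S.card := by positivity
  calc ((s : ℝ) + 1) ^ ((r : ℝ) / ((r : ℝ) - 1))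
      = (((s : ℝ) + 1) ^ (r : ℝ)) ^ (1 / ((r : ℝ) - 1)) := by
        rw [← Real.rpow_mul (by positivity)]; congr 1; ring
    _ ≤ (((r : ℝ) * S.card) ^ ((r : ℝ) - 1)) ^ (1 / ((r : ℝ) - 1)) := by
        apply Real.rpow_le_rpow (by positivity) h2 (by positivity)
    _ = r * S.card := by
        rw [← Real.rpow_mul h0, mul_one_div_cancel hr1.ne', Real.rpow_one]

/-- `x ^ 4 ≤ 24 * exp x` for `x ≥ 0`. -/
theorem pow_four_le_exp {x : ℝ} (hx : 0 ≤ x) : x ^ 4 ≤ 24 * Real.exp x := by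
  have h := Real.pow_div_factorial_le_exp x hx 4
  have : ((4 : ℕ).factorial : ℝ) = 24 := by norm_num [Nat.factorial]
  rw [this] at h
  rw [div_le_iff₀ (by norm_num)] at h
  linarith

theorem pow_four_mul_exp_neg_le {L : ℝ} (hL : 0 ≤ L) :
    L ^ 4 * Real.exp (-(15 / 64 * L)) ≤ 7960 := by
  have h4 := pow_four_le_exp (x := 15 / 64 * L) (by positivity)
  rw [Real.exp_neg, ← div_eq_mul_inv, div_le_iff₀ (Real.exp_pos _)]
  have h8 : (15 / 64 * L) ^ 4 = (15 / 64 : ℝ) ^ 4 * L ^ 4 := by ring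
  rw [h8] at h4
  have h9 := Real.exp_pos (15 / 64 * L)
  have h10 : L ^ 4 ≤ (24 / (15 / 64 : ℝ) ^ 4) * Real.exp (15 / 64 * L) := by
    rw [div_mul_eq_mul_div, le_div_iff₀ (by positivity)]
    linarith
  have h11 : (24 / (15 / 64 : ℝ) ^ 4) ≤ 7960 := by norm_num
  calc L ^ 4 ≤ _ := h10
    _ ≤ 7960 * Real.exp (15 / 64 * L) := by gcongr

/-- Numerics (7). `lam = p(1-p)`, `K = lam I / W`, `δ = 1/(4K)`, `s = ⌊2^-7 L √lam⌋`,
`m = ⌊√n⌋`. -/
theorem numerics (r n : ℕ) (hr : 2 ≤ r) (hrn : r ≤ n) (lam K : ℝ) (hl0 : 0 < lam)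
    (hl1 : lam ≤ 1 / 4) (hK1 : 1 ≤ K)
    (hK : K * (2 ^ 16 * r) < lam * Real.log n ^ ((r : ℝ) / ((r : ℝ) - 1))) :
    (r : ℝ) * K * Real.sqrt (4 / lam) ^ ⌊Real.log n * Real.sqrt lam / 2 ^ 7⌋₊
          / Real.sqrt (lam * (Nat.sqrt n : ℝ) / (4 * K))
        + (Nat.sqrt n : ℝ) / n * r ^ 2 * K ^ 2 ≤ 1 / 4
      ∧ 4 * r * K < ((⌊Real.log n * Real.sqrt lam / 2 ^ 7⌋₊ : ℝ) + 1)
          ^ ((r : ℝ) / ((r : ℝ) - 1)) := by
  have hr' : (2 : ℝ) ≤ r := by exact_mod_cast hr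
  have hn2 : 2 ≤ n := hr.trans hrn
  have hn' : (2 : ℝ) ≤ n := by exact_mod_cast hn2
  have hr0 : (0 : ℝ) < r := by linarith
  have hr1 : (0 : ℝ) < (r : ℝ) - 1 := by linarith
  set ρ : ℝ := (r : ℝ) / ((r : ℝ) - 1) with hρ
  have hρ0 : 0 < ρ := div_pos hr0 hr1
  have hρ2 : ρ ≤ 2 := by rw [hρ, div_le_iff₀ hr1]; linarith
  set L : ℝ := Real.log n with hL
  have hL0 : 0 < L := Real.log_pos (by linarith)
  have hLρ : 0 < L ^ ρ := Real.rpow_pos_of_pos hL0 _
  have hK0 : 0 < K := by linarith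
  -- `L` is large
  have hLpow : 2 ^ 16 * r < lam * L ^ ρ := by
    have : 2 ^ 16 * (r : ℝ) ≤ K * (2 ^ 16 * r) := by
      have h0 : (0 : ℝ) ≤ 2 ^ 16 * r := by positivity
      nlinarith
    linarith
  have hL1 : 1 ≤ L := by
    by_contra hlt
    push Not at hlt
    have h1 : L ^ ρ ≤ 1 := Real.rpow_le_one hL0.le hlt.le hρ0.le
    have h2 : lam * L ^ ρ ≤ 1 / 4 * 1 := mul_le_mul hl1 h1 hLρ.le (by norm_num)
    linarith
  have hLρ2 : L ^ ρ ≤ L ^ 2 := by
    rw [← Real.rpow_natCast L 2]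
    exact Real.rpow_le_rpow_of_exponent_le hL1 (by exact_mod_cast hρ2)
  have hpqL' : (2 : ℝ) ^ 17 ≤ lam * L ^ 2 := by
    have h1 : lam * L ^ ρ ≤ lam * L ^ 2 := mul_le_mul_of_nonneg_left hLρ2 hl0.le
    linarith
  -- bounds on K
  have hrK : r * K ≤ L ^ 2 / 2 ^ 18 := by
    have h2 : lam * L ^ ρ ≤ 1 / 4 * L ^ 2 := by
      apply mul_le_mul hl1 hLρ2 hLρ.le (by norm_num)
    rw [le_div_iff₀ (by positivity)]
    have h3 : (r : ℝ) * K * 2 ^ 18 = 4 * (K * (2 ^ 16 * r)) := by ring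
    rw [h3]; linarith
  have hK2 : K ≤ L ^ 2 / 2 ^ 19 := by
    have h1 : 2 * K ≤ r * K := mul_le_mul_of_nonneg_right hr' hK0.le
    have h2 : L ^ 2 / 2 ^ 19 = (L ^ 2 / 2 ^ 18) / 2 := by ring
    rw [h2]; linarith
  set sg : ℝ := Real.sqrt lam with hsg
  have hsg0 : 0 < sg := Real.sqrt_pos.mpr hl0
  have hsgsq : sg ^ 2 = lam := Real.sq_sqrt hl0.le
  have hsg1 : sg ≤ 1 / 2 := by
    rw [hsg, Real.sqrt_le_left (by norm_num)]; linarith
  have h4lam : Real.sqrt (4 / lam) = 2 / sg := by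
    rw [Real.sqrt_div' _ hl0.le, hsg]
    congr 1
    rw [show (4 : ℝ) = 2 ^ 2 by norm_num, Real.sqrt_sq (by norm_num)]
  set s : ℕ := ⌊L * sg / 2 ^ 7⌋₊ with hs
  have hs1 : (s : ℝ) ≤ L * sg / 2 ^ 7 := Nat.floor_le (by positivity)
  have hs2 : L * sg / 2 ^ 7 < (s : ℝ) + 1 := Nat.lt_floor_add_one _
  set m : ℕ := Nat.sqrt n with hm
  have hmsq : m * m ≤ n := Nat.sqrt_le n
  have hmsq2 : n < (m + 1) * (m + 1) := Nat.lt_succ_sqrt n
  have hm1 : 1 ≤ m := by
    rw [hm, Nat.le_sqrt]; omega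
  have hm1' : (1 : ℝ) ≤ m := by exact_mod_cast hm1
  have hm0 : (0 : ℝ) < m := by linarith
  have hnexp : (n : ℝ) = Real.exp L := by rw [hL, Real.exp_log (by linarith)]
  have hE : Real.exp (L / 2) * Real.exp (L / 2) = n := by
    rw [← Real.exp_add, hnexp]; congr 1; ring
  have hmle : (m : ℝ) ≤ Real.exp (L / 2) := by
    have h1 : (m : ℝ) * m ≤ Real.exp (L / 2) * Real.exp (L / 2) := by
      rw [hE]; exact_mod_cast hmsq
    by_contra hlt
    push Not at hlt
    have h2 : Real.exp (L / 2) * Real.exp (L / 2) < m * m :=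
      mul_lt_mul'' hlt hlt (Real.exp_pos _).le (Real.exp_pos _).le
    linarith
  have hmlow : Real.exp (L / 2) / 2 ≤ m := by
    have h1 : Real.exp (L / 2) * Real.exp (L / 2) < ((m : ℝ) + 1) * (m + 1) := by
      rw [hE]; exact_mod_cast hmsq2
    have h2 : Real.exp (L / 2) < m + 1 := by
      by_contra hge
      push Not at hge
      have h3 : ((m : ℝ) + 1) * (m + 1) ≤ Real.exp (L / 2) * Real.exp (L / 2) :=
        mul_le_mul hge hge (by positivity) (Real.exp_pos _).le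
      linarith
    linarith
  have hexp64 : (2 / sg) ^ s ≤ Real.exp (L / 64) := by
    have h1 : 2 / sg ≤ Real.exp (2 / sg) := by
      have := Real.add_one_le_exp (2 / sg); linarith
    calc (2 / sg) ^ s ≤ (Real.exp (2 / sg)) ^ s := pow_le_pow_left₀ (by positivity) h1 s
      _ = Real.exp (s * (2 / sg)) := by rw [← Real.exp_nat_mul]
      _ ≤ Real.exp (L / 64) := by
          apply Real.exp_le_exp.mpr
          calc (s : ℝ) * (2 / sg) ≤ (L * sg / 2 ^ 7) * (2 / sg) :=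
                mul_le_mul_of_nonneg_right hs1 (by positivity)
            _ = L / 64 := by field_simp; norm_num
  have hT1 : (r : ℝ) * K * (2 / sg) ^ s / Real.sqrt (lam * m / (4 * K)) ≤ 1 / 8 := by
    have hden : sg * Real.exp (L / 4) / (3 * Real.sqrt K) ≤ Real.sqrt (lam * m / (4 * K)) := by
      apply Real.le_sqrt_of_sq_le
      have hKsq : Real.sqrt K ^ 2 = K := Real.sq_sqrt hK0.le
      have e1 : (sg * Real.exp (L / 4) / (3 * Real.sqrt K)) ^ 2
          = lam * Real.exp (L / 2) / (9 * K) := by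
        have e0 : ((2 : ℕ) : ℝ) * (L / 4) = L / 2 := by push_cast; ring
        rw [div_pow, mul_pow, mul_pow, hKsq, hsgsq, ← Real.exp_nat_mul, e0]
        norm_num
      rw [e1, div_le_div_iff₀ (by positivity) (by positivity)]
      calc lam * Real.exp (L / 2) * (4 * K) = (lam * K) * (8 * (Real.exp (L / 2) / 2)) := by ring
        _ ≤ (lam * K) * (8 * m) := by gcongr
        _ ≤ (lam * K) * (9 * m) := by gcongr; norm_num
        _ = lam * m * (9 * K) := by ring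
    have hden0 : 0 < sg * Real.exp (L / 4) / (3 * Real.sqrt K) := by positivity
    have hnum0 : 0 ≤ (r : ℝ) * K * (2 / sg) ^ s := by positivity
    calc (r : ℝ) * K * (2 / sg) ^ s / Real.sqrt (lam * m / (4 * K))
        ≤ (r : ℝ) * K * (2 / sg) ^ s / (sg * Real.exp (L / 4) / (3 * Real.sqrt K)) :=
          div_le_div_of_nonneg_left hnum0 hden0 hden
      _ = (3 * (r * K) * (Real.sqrt K / sg)) * ((2 / sg) ^ s * Real.exp (-(L / 4))) := by
          rw [Real.exp_neg]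
          field_simp
      _ ≤ (3 * (L ^ 2 / 2 ^ 18) * (L ^ 2 / 2 ^ 18)) *
            (Real.exp (L / 64) * Real.exp (-(L / 4))) := by
          have hKs : Real.sqrt K / sg ≤ L ^ 2 / 2 ^ 18 := by
            rw [div_le_iff₀ hsg0]
            apply Real.sqrt_le_iff.mpr
            refine ⟨by positivity, ?_⟩
            calc K ≤ L ^ 2 / 2 ^ 19 := hK2
              _ = L ^ 2 * 2 ^ 17 / 2 ^ 36 := by ring
              _ ≤ L ^ 2 * (lam * L ^ 2) / 2 ^ 36 := by
                  apply div_le_div_of_nonneg_right _ (by positivity)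
                  exact mul_le_mul_of_nonneg_left hpqL' (by positivity)
              _ = (L ^ 2 / 2 ^ 18 * sg) ^ 2 := by rw [mul_pow, hsgsq]; ring
          gcongr
      _ = (L ^ 4 * Real.exp (-(15 / 64 * L))) * (3 / 2 ^ 36) := by
          rw [← Real.exp_add]
          have : L / 64 + -(L / 4) = -(15 / 64 * L) := by ring
          rw [this]; ring
      _ ≤ 7960 * (3 / 2 ^ 36) := by
          have h5 := pow_four_mul_exp_neg_le hL0.le
          gcongr
      _ ≤ 1 / 8 := by norm_num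
  have hT2 : (m : ℝ) / n * r ^ 2 * K ^ 2 ≤ 1 / 8 := by
    have h1 : (m : ℝ) / n ≤ Real.exp (-(L / 2)) := by
      rw [div_le_iff₀ (by linarith)]
      calc (m : ℝ) ≤ Real.exp (L / 2) := hmle
        _ = Real.exp (-(L / 2)) * n := by
            rw [hnexp, ← Real.exp_add]; congr 1; ring
    have h2 : (r * K) ^ 2 ≤ (L ^ 2 / 2 ^ 18) ^ 2 := pow_le_pow_left₀ (by positivity) hrK 2
    have h3 : L ^ 4 * Real.exp (-(L / 2)) ≤ 384 := by
      have h4 := pow_four_le_exp (x := L / 2) (by positivity)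
      rw [Real.exp_neg, ← div_eq_mul_inv, div_le_iff₀ (Real.exp_pos _)]
      have h8 : (L / 2) ^ 4 = L ^ 4 / 16 := by ring
      rw [h8] at h4
      linarith
    calc (m : ℝ) / n * r ^ 2 * K ^ 2 = (m : ℝ) / n * (r * K) ^ 2 := by ring
      _ ≤ Real.exp (-(L / 2)) * (L ^ 2 / 2 ^ 18) ^ 2 := by gcongr
      _ = (L ^ 4 * Real.exp (-(L / 2))) * (1 / 2 ^ 36) := by ring
      _ ≤ 384 * (1 / 2 ^ 36) := by gcongr
      _ ≤ 1 / 8 := by norm_num
  refine ⟨?_, ?_⟩
  · rw [h4lam]; linarith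
  · have hlt : 4 * r * K < lam * L ^ ρ / 2 ^ 14 := by
      rw [lt_div_iff₀ (by positivity)]
      calc 4 * r * K * 2 ^ 14 = K * (2 ^ 16 * r) := by ring
        _ < lam * L ^ ρ := hK
    refine lt_of_lt_of_le hlt ?_
    have h1 : (L * sg / 2 ^ 7) ^ ρ ≤ ((s : ℝ) + 1) ^ ρ :=
      Real.rpow_le_rpow (by positivity) hs2.le hρ0.le
    have h2 : (L * sg / 2 ^ 7) ^ ρ = L ^ ρ * (sg / 2 ^ 7) ^ ρ := by
      rw [mul_div_assoc, Real.mul_rpow hL0.le (by positivity)]
    have h3 : (sg / 2 ^ 7) ^ (2 : ℝ) ≤ (sg / 2 ^ 7) ^ ρ := by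
      apply Real.rpow_le_rpow_of_exponent_ge (by positivity) _ hρ2
      rw [div_le_one (by positivity)]; linarith
    have h4 : (sg / 2 ^ 7) ^ (2 : ℝ) = lam / 2 ^ 14 := by
      rw [Real.rpow_two, div_pow, hsgsq]; norm_num
    rw [h4] at h3
    calc lam * L ^ ρ / 2 ^ 14 = L ^ ρ * (lam / 2 ^ 14) := by ring
      _ ≤ L ^ ρ * (sg / 2 ^ 7) ^ ρ := by gcongr
      _ ≤ _ := by rw [← h2]; exact h1

end Crest.Agent.R056
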