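import Mathlib
import Crest.Prelude.Def_FinProb
import Crest.Prelude.Def_HypergraphCube

/-!
Row 56 (S0077, S0078): shared definitions. p-biased Fourier analysis on `ι → Bool`.
-/

set_option autoImplicit false

namespace Crest.Agent.R056

open Finset Crest.FinProb

section Cube

variable {ι : Type*} [Fintype ι] [DecidableEq ι]

/-- Expectation of `g` under independent coins of bias `p`. -/
noncomputable def Ex (p : ℝ) (g : (ι → Bool) → ℝ) : ℝ :=
  ∑ ω : ι → Bool, bernoulliWeight p ω * g ω

/-- The normalized one-coin function (mean 0, variance 1 for `0 < p < 1`). -/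
noncomputable def phi (p : ℝ) (x : Bool) : ℝ :=
  (if x then 1 - p else -p) / Real.sqrt (p * (1 - p))

/-- The Fourier character of the set `S`. -/
noncomputable def chi (p : ℝ) (S : Finset ι) (ω : ι → Bool) : ℝ := ∏ i ∈ S, phi p (ω i)

/-- Fourier coefficient. -/
noncomputable def hat (p : ℝ) (g : (ι → Bool) → ℝ) (S : Finset ι) : ℝ :=
  Ex p (fun ω => g ω * chi p S ω)

/-- The 0-1 real function of a Boolean function. -/
def ind (f : (ι → Bool) → Bool) : (ι → Bool) → ℝ := fun ω => if f ω then 1 else 0

/-- Discrete derivative in direction `e`. -/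
def Dx (e : ι) (g : (ι → Bool) → ℝ) : (ι → Bool) → ℝ :=
  fun ω => g (Function.update ω e true) - g (Function.update ω e false)

/-- Pivotal influence; for `ι = HyperedgeSlot n r` this is `pivotalInfluence`. -/
noncomputable def infl (p : ℝ) (f : (ι → Bool) → Bool) (e : ι) : ℝ :=
  bernoulliProb p {x | f (Function.update x e true) ≠ f (Function.update x e false)}

/-- Total pivotal influence. -/
noncomputable def totInf (p : ℝ) (f : (ι → Bool) → Bool) : ℝ := ∑ e : ι, infl p f e

/-- Fourier mass on levels at most `d`. -/
noncomputable def lowMass (p : ℝ) (d : ℕ) (g : (ι → Bool) → ℝ) : ℝ :=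
  ∑ S ∈ (univ : Finset (Finset ι)).filter (fun S => S.card ≤ d), hat p g S ^ 2

/-- Squared Fourier coefficients of a Boolean function. -/
noncomputable def mass (p : ℝ) (f : (ι → Bool) → Bool) (S : Finset ι) : ℝ := hat p (ind f) S ^ 2

/-- Variance as the Fourier mass off the empty set. -/
noncomputable def vari (p : ℝ) (f : (ι → Bool) → Bool) : ℝ :=
  ∑ S ∈ (univ : Finset (Finset ι)).filter (fun S => S ≠ ∅), mass p f S

/-- The random set `J` attached to an outcome. -/
def Jset (η : ι → Bool) : Finset ι := univ.filter (fun i => η i = true)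

/-- Mass of the sets whose trace on `J` is `T`. -/
noncomputable def wmass (p : ℝ) (f : (ι → Bool) → Bool) (J T : Finset ι) : ℝ :=
  ∑ S ∈ (univ : Finset (Finset ι)).filter (fun S => S ∩ J = T), mass p f S

end Cube

/-- The set of vertices covered by a set of slots. -/
def verts {n r : ℕ} (T : Finset (Crest.CombinatoricsR.HypergraphCube.HyperedgeSlot n r)) :
    Finset (Fin n) := T.biUnion (fun e => e.1)

end Crest.Agent.R056
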