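import Crest.Agent.R056.Defs

/-! Row 56: further shared definitions (proof of helper406). -/

set_option autoImplicit false

namespace Crest.Agent.R056

open Finset Crest.FinProb Crest.CombinatoricsR.HypergraphCube

section Cube

variable {ι : Type*} [Fintype ι] [DecidableEq ι]

/-- Expectation under independent coins, coin `i` of bias `ν i`. -/
noncomputable def EW (ν : ι → ℝ) (F : (ι → Bool) → ℝ) : ℝ :=
  ∑ y : ι → Bool, (∏ i, if y i then ν i else 1 - ν i) * F y

theorem EW_const (p : ℝ) (F : (ι → Bool) → ℝ) : EW (fun _ => p) F = Ex p F := rfl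

/-- Coordinates in `J` from `y`, the others from `x`. -/
def mix (J : Finset ι) (x y : ι → Bool) : ι → Bool := fun i => if i ∈ J then y i else x i

/-- Rerandomize the coordinates in `J`. -/
noncomputable def EJ (p : ℝ) (J : Finset ι) (F : (ι → Bool) → ℝ) (x : ι → Bool) : ℝ :=
  Ex p (fun y => F (mix J x y))

/-- Biases seen from `x` when each coordinate is rerandomized with probability `δ`. -/
noncomputable def nu (p δ : ℝ) (x : ι → Bool) (i : ι) : ℝ :=
  (1 - δ) * (if x i then 1 else 0) + δ * p

/-- Noise operator: rerandomize each coordinate with probability `δ`. -/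
noncomputable def Tn (p δ : ℝ) (F : (ι → Bool) → ℝ) (x : ι → Bool) : ℝ := EW (nu p δ x) F

end Cube

variable {n r : ℕ}

/-- The slots touching the vertex set `A`. -/
def touch (r : ℕ) (A : Finset (Fin n)) : Finset (HyperedgeSlot n r) :=
  univ.filter (fun e => ¬ Disjoint e.1 A)

/-- Degree of the vertex `a` in the hypergraph `S`. -/
def degS (S : Finset (HyperedgeSlot n r)) (a : Fin n) : ℕ := (S.filter (fun e => a ∈ e.1)).card

/-- `Λ`: mass (after noise) of the pairs `(a, S)` with `1 ≤ deg_a(S) ≤ s`. -/
noncomputable def Lam (p δ : ℝ) (f : (HyperedgeSlot n r → Bool) → Bool) (s : ℕ) : ℝ :=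
  ∑ a : Fin n, ∑ S ∈ (univ : Finset (Finset (HyperedgeSlot n r))).filter
    (fun S => 1 ≤ degS S a ∧ degS S a ≤ s), (1 - δ) ^ (2 * S.card) * mass p f S

end Crest.Agent.R056
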