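import Crest.Agent.R056.Defs

/-! Row 56: basic p-biased Fourier analysis. OWNER: helper386 (helper56 if silent).
Much of it is adapted from helper425's draft. -/

set_option autoImplicit false
set_option linter.unusedSectionVars false
set_option linter.unusedSimpArgs false

namespace Crest.Agent.R056

open Finset Crest.FinProb

section Fourier

variable {ι : Type*} [Fintype ι] [DecidableEq ι] {p : ℝ}

/-- expectation of a product of one-bit functions. -/
theorem Ex_prod (p : ℝ) (ψ : ι → Bool → ℝ) :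
    Ex p (fun ω => ∏ i, ψ i (ω i)) = ∏ i, (p * ψ i true + (1 - p) * ψ i false) := by
  have h := Finset.prod_univ_sum (fun _ : ι => (univ : Finset Bool))
    (fun i b => (if b then p else 1 - p) * ψ i b)
  rw [Fintype.piFinset_univ] at h
  unfold Ex bernoulliWeight
  simp only [← Finset.prod_mul_distrib]
  rw [← h]
  refine Finset.prod_congr rfl fun i _ => ?_
  simp

theorem Ex_one (p : ℝ) : Ex p (fun _ : ι → Bool => (1 : ℝ)) = 1 := by
  have h := Ex_prod p (fun (_ : ι) (_ : Bool) => (1 : ℝ))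
  simpa using h

theorem weight_nonneg (hp0 : 0 ≤ p) (hp1 : p ≤ 1) (ω : ι → Bool) :
    0 ≤ bernoulliWeight p ω := by
  unfold bernoulliWeight
  refine Finset.prod_nonneg fun i _ => ?_
  split_ifs <;> linarith

theorem weight_pos (hp0 : 0 < p) (hp1 : p < 1) (ω : ι → Bool) :
    0 < bernoulliWeight p ω := by
  unfold bernoulliWeight
  refine Finset.prod_pos fun i _ => ?_
  split_ifs <;> linarith

theorem Ex_nonneg (hp0 : 0 ≤ p) (hp1 : p ≤ 1) {g : (ι → Bool) → ℝ} (hg : ∀ ω, 0 ≤ g ω) :
    0 ≤ Ex p g :=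
  Finset.sum_nonneg fun ω _ => mul_nonneg (weight_nonneg hp0 hp1 ω) (hg ω)

theorem Ex_mono (hp0 : 0 ≤ p) (hp1 : p ≤ 1) {g h : (ι → Bool) → ℝ} (hgh : ∀ ω, g ω ≤ h ω) :
    Ex p g ≤ Ex p h :=
  Finset.sum_le_sum fun ω _ => mul_le_mul_of_nonneg_left (hgh ω) (weight_nonneg hp0 hp1 ω)

theorem Ex_add (g h : (ι → Bool) → ℝ) : Ex p (fun ω => g ω + h ω) = Ex p g + Ex p h := by
  simp [Ex, mul_add, Finset.sum_add_distrib]

theorem Ex_sub (g h : (ι → Bool) → ℝ) : Ex p (fun ω => g ω - h ω) = Ex p g - Ex p h := by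
  simp [Ex, mul_sub, Finset.sum_sub_distrib]

theorem Ex_const_mul (c : ℝ) (g : (ι → Bool) → ℝ) : Ex p (fun ω => c * g ω) = c * Ex p g := by
  simp only [Ex, Finset.mul_sum]
  refine Finset.sum_congr rfl fun ω _ => by ring

theorem Ex_const (p c : ℝ) : Ex p (fun _ : ι → Bool => c) = c := by
  have h2 := Ex_const_mul (p := p) c (fun _ : ι → Bool => (1 : ℝ))
  simpa [Ex_one] using h2

theorem Ex_sum {κ : Type*} (s : Finset κ) (g : κ → (ι → Bool) → ℝ) :
    Ex p (fun ω => ∑ k ∈ s, g k ω) = ∑ k ∈ s, Ex p (g k) := by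
  simp only [Ex, Finset.mul_sum]
  rw [Finset.sum_comm]

/-- Cauchy-Schwarz. -/
theorem Ex_mul_sq_le (hp0 : 0 ≤ p) (hp1 : p ≤ 1) (g h : (ι → Bool) → ℝ) :
    Ex p (fun ω => g ω * h ω) ^ 2 ≤ Ex p (fun ω => g ω ^ 2) * Ex p (fun ω => h ω ^ 2) := by
  unfold Ex
  refine Finset.sum_sq_le_sum_mul_sum_of_sq_eq_mul _ (fun ω _ => ?_) (fun ω _ => ?_)
    (fun ω _ => ?_)
  · exact mul_nonneg (weight_nonneg hp0 hp1 ω) (sq_nonneg _)
  · exact mul_nonneg (weight_nonneg hp0 hp1 ω) (sq_nonneg _)
  · ring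

theorem bernoulliProb_eq_Ex (E : Set (ι → Bool)) [DecidablePred (· ∈ E)] :
    bernoulliProb p E = Ex p (fun ω => if ω ∈ E then 1 else 0) := by
  unfold bernoulliProb Ex
  simp only [mul_ite, mul_one, mul_zero]
  rw [Finset.sum_filter]
  refine Finset.sum_congr rfl fun ω _ => ?_
  by_cases h : ω ∈ E <;> simp [h]

/-- Integrate out one coordinate: `g` arbitrary. -/
theorem Ex_eq_update (e : ι) (g : (ι → Bool) → ℝ) :
    Ex p g = Ex p (fun ω => p * g (Function.update ω e true)
      + (1 - p) * g (Function.update ω e false)) := by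
  classical
  have key : ∀ F : (ι → Bool) → ℝ, ∑ ω : ι → Bool, F ω =
      ∑ τ : {j // j ≠ e} → Bool,
        (F ((Equiv.funSplitAt e Bool).symm (true, τ)) +
          F ((Equiv.funSplitAt e Bool).symm (false, τ))) := by
    intro F
    rw [← (Equiv.funSplitAt e Bool).symm.sum_comp F, Fintype.sum_prod_type_right]
    refine Finset.sum_congr rfl fun τ _ => ?_
    rw [Fintype.sum_bool]
  have hup : ∀ (b c : Bool) (τ : {j // j ≠ e} → Bool),
      Function.update ((Equiv.funSplitAt e Bool).symm (b, τ)) e c =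
        (Equiv.funSplitAt e Bool).symm (c, τ) := by
    intro b c τ
    funext j
    by_cases hj : j = e
    · subst hj; simp
    · simp [hj]
  have hw : ∀ (b : Bool) (τ : {j // j ≠ e} → Bool),
      bernoulliWeight p ((Equiv.funSplitAt e Bool).symm (b, τ)) =
        (if b then p else 1 - p) *
          ∏ i ∈ univ.erase e, (if ((Equiv.funSplitAt e Bool).symm (true, τ)) i then p else 1 - p) := by
    intro b τ
    unfold bernoulliWeight
    rw [← Finset.mul_prod_erase univ _ (Finset.mem_univ e)]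
    congr 1
    · simp
    · refine Finset.prod_congr rfl fun i hi => ?_
      have : i ≠ e := (Finset.mem_erase.mp hi).1
      simp [this]
  unfold Ex
  rw [key, key]
  refine Finset.sum_congr rfl fun τ _ => ?_
  simp only [hup, hw]
  simp
  ring

/-- Independence of a coordinate `e` and a function not depending on it. -/
theorem Ex_coord_mul (e : ι) (ψ : Bool → ℝ) (h : (ι → Bool) → ℝ)
    (hh : ∀ ω b, h (Function.update ω e b) = h ω) :
    Ex p (fun ω => ψ (ω e) * h ω) = (p * ψ true + (1 - p) * ψ false) * Ex p h := by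
  rw [Ex_eq_update e, ← Ex_const_mul]
  congr 1
  funext ω
  simp [hh]
  ring

theorem chi_empty (p : ℝ) (ω : ι → Bool) : chi p ∅ ω = 1 := by simp [chi]

section moments
variable (hp0 : 0 < p) (hp1 : p < 1)
include hp0 hp1

theorem pq_pos : 0 < p * (1 - p) := mul_pos hp0 (by linarith)

theorem sqrt_pq_pos : 0 < Real.sqrt (p * (1 - p)) := Real.sqrt_pos.mpr (pq_pos hp0 hp1)

theorem sq_sqrt_pq : Real.sqrt (p * (1 - p)) ^ 2 = p * (1 - p) :=
  Real.sq_sqrt (pq_pos hp0 hp1).le

theorem phi_sq (b : Bool) : phi p b ^ 2 = (if b then (1 - p) / p else p / (1 - p)) := by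
  have h1 : (1 : ℝ) - p ≠ 0 := by linarith
  have h0 : p ≠ 0 := by linarith
  unfold phi
  rw [div_pow, sq_sqrt_pq hp0 hp1]
  cases b
  · simp; field_simp
  · simp; field_simp

theorem mean_phi : p * phi p true + (1 - p) * phi p false = 0 := by
  unfold phi
  simp
  ring

theorem mean_phi_sq : p * (phi p true * phi p true) + (1 - p) * (phi p false * phi p false) = 1 := by
  have h1 : (1 : ℝ) - p ≠ 0 := by linarith
  have h0 : p ≠ 0 := by linarith
  simp only [← sq, phi_sq hp0 hp1]
  simp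
  field_simp
  ring

/-- the two-point kernel. -/
theorem kernel (b c : Bool) :
    (if b then p else 1 - p) * (1 + phi p b * phi p c) = if b = c then 1 else 0 := by
  have h1 : (1 : ℝ) - p ≠ 0 := by linarith
  have h0 : p ≠ 0 := by linarith
  have hs := (sqrt_pq_pos hp0 hp1).ne'
  have hsq := sq_sqrt_pq hp0 hp1
  have e : phi p b * phi p c = (if b then 1 - p else -p) * (if c then 1 - p else -p) / (p * (1 - p)) := by
    unfold phi
    rw [div_mul_div_comm, ← sq, hsq]
  rw [e]
  have hpq : p * (1 - p) ≠ 0 := mul_ne_zero h0 h1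
  cases b <;> cases c <;>
    simp only [Bool.false_eq_true, if_true, if_false, reduceCtorEq] <;>
    field_simp <;> ring

theorem Ex_chi_mul_chi (S T : Finset ι) :
    Ex p (fun ω => chi p S ω * chi p T ω) = if S = T then 1 else 0 := by
  have e : ∀ ω : ι → Bool, chi p S ω * chi p T ω =
      ∏ i, ((if i ∈ S then phi p (ω i) else 1) * (if i ∈ T then phi p (ω i) else 1)) := by
    intro ω
    unfold chi
    rw [Finset.prod_mul_distrib, Finset.prod_ite_mem, Finset.prod_ite_mem]
    simp
  simp only [e]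
  rw [Ex_prod p (fun i b => (if i ∈ S then phi p b else 1) * (if i ∈ T then phi p b else 1))]
  by_cases hST : S = T
  · subst hST
    rw [if_pos rfl]
    refine Finset.prod_eq_one fun i _ => ?_
    by_cases hi : i ∈ S
    · simp only [hi, if_true]; exact mean_phi_sq hp0 hp1
    · simp [hi]
  · rw [if_neg hST]
    obtain ⟨i, hi⟩ : ∃ i, ¬ (i ∈ S ↔ i ∈ T) := by
      by_contra hcon
      push Not at hcon
      exact hST (Finset.ext hcon)
    refine Finset.prod_eq_zero (Finset.mem_univ i) ?_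
    have h0 := mean_phi hp0 hp1
    by_cases h1 : i ∈ S <;> by_cases h2 : i ∈ T
    · exact absurd (by tauto) hi
    · simpa [h1, h2] using h0
    · simpa [h1, h2] using h0
    · exact absurd (by tauto) hi

/-- The partial kernel identity: summing over `S ⊆ A`. -/
theorem weight_mul_sum_chi (ω τ : ι → Bool) :
    bernoulliWeight p ω * ∑ S : Finset ι, chi p S ω * chi p S τ = if ω = τ then 1 else 0 := by
  have h1 : ∑ S : Finset ι, chi p S ω * chi p S τ = ∏ i, (1 + phi p (ω i) * phi p (τ i)) := by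
    rw [Finset.prod_one_add]
    rw [Finset.powerset_univ]
    refine Finset.sum_congr rfl fun S _ => ?_
    unfold chi
    rw [Finset.prod_mul_distrib]
  rw [h1]
  unfold bernoulliWeight
  rw [← Finset.prod_mul_distrib]
  simp only [kernel hp0 hp1]
  by_cases h : ω = τ
  · subst h; simp
  · rw [if_neg h]
    obtain ⟨i, hi⟩ : ∃ i, ω i ≠ τ i := by
      by_contra hcon
      push Not at hcon
      exact h (funext hcon)
    exact Finset.prod_eq_zero (Finset.mem_univ i) (by simp [hi])

/-- Fourier inversion. -/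
theorem expansion (g : (ι → Bool) → ℝ) (τ : ι → Bool) :
    g τ = ∑ S : Finset ι, hat p g S * chi p S τ := by
  calc g τ = ∑ ω : ι → Bool, (if ω = τ then 1 else 0) * g ω := by simp
    _ = ∑ ω : ι → Bool, (bernoulliWeight p ω * ∑ S : Finset ι, chi p S ω * chi p S τ) * g ω := by
        simp only [weight_mul_sum_chi hp0 hp1]
    _ = _ := by
        unfold hat Ex
        simp only [Finset.mul_sum, Finset.sum_mul]
        rw [Finset.sum_comm]
        refine Finset.sum_congr rfl fun S _ => Finset.sum_congr rfl fun ω _ => by ring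

theorem Ex_lincomb_mul (F : Finset (Finset ι)) (c d : Finset ι → ℝ) :
    Ex p (fun ω => (∑ S ∈ F, c S * chi p S ω) * (∑ S ∈ F, d S * chi p S ω)) =
      ∑ S ∈ F, c S * d S := by
  have e : ∀ ω : ι → Bool, (∑ S ∈ F, c S * chi p S ω) * (∑ S ∈ F, d S * chi p S ω) =
      ∑ S ∈ F, ∑ T ∈ F, (c S * d T) * (chi p S ω * chi p T ω) := by
    intro ω
    rw [Finset.sum_mul_sum]
    refine Finset.sum_congr rfl fun S _ => Finset.sum_congr rfl fun T _ => by ring
  simp only [e]
  rw [Ex_sum]
  refine Finset.sum_congr rfl fun S hS => ?_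
  rw [Ex_sum]
  simp only [Ex_const_mul, Ex_chi_mul_chi hp0 hp1]
  simp [hS]

theorem parseval (g h : (ι → Bool) → ℝ) :
    Ex p (fun ω => g ω * h ω) = ∑ S : Finset ι, hat p g S * hat p h S := by
  have h1 := Ex_lincomb_mul hp0 hp1 (univ : Finset (Finset ι)) (hat p g) (hat p h)
  simpa only [← expansion hp0 hp1 g, ← expansion hp0 hp1 h] using h1

theorem parseval_sq (g : (ι → Bool) → ℝ) :
    Ex p (fun ω => g ω ^ 2) = ∑ S : Finset ι, hat p g S ^ 2 := by
  have h := parseval hp0 hp1 g g
  simpa [sq] using h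

end moments

theorem hat_add (g h : (ι → Bool) → ℝ) (S : Finset ι) :
    hat p (fun ω => g ω + h ω) S = hat p g S + hat p h S := by
  unfold hat
  rw [← Ex_add]
  congr 1; funext ω; ring

/-- The Fourier coefficients of the polynomial with coefficients `a`. -/
theorem hat_sum_chi (hp0 : 0 < p) (hp1 : p < 1) (F : Finset (Finset ι)) (a : Finset ι → ℝ)
    (S : Finset ι) :
    hat p (fun ω => ∑ T ∈ F, a T * chi p T ω) S = if S ∈ F then a S else 0 := by
  unfold hat
  have e : ∀ ω : ι → Bool, (∑ T ∈ F, a T * chi p T ω) * chi p S ω =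
      ∑ T ∈ F, a T * (chi p T ω * chi p S ω) := by
    intro ω
    rw [Finset.sum_mul]
    refine Finset.sum_congr rfl fun T _ => by ring
  simp only [e]
  rw [Ex_sum]
  simp only [Ex_const_mul, Ex_chi_mul_chi hp0 hp1]
  simp

theorem lowMass_le (hp0 : 0 < p) (hp1 : p < 1) (d : ℕ) (g : (ι → Bool) → ℝ) :
    lowMass p d g ≤ Ex p (fun ω => g ω ^ 2) := by
  rw [parseval_sq hp0 hp1]
  unfold lowMass
  exact Finset.sum_le_sum_of_subset_of_nonneg (Finset.filter_subset _ _)
    (fun S _ _ => sq_nonneg _)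

theorem lowMass_nonneg (d : ℕ) (g : (ι → Bool) → ℝ) : 0 ≤ lowMass p d g :=
  Finset.sum_nonneg fun S _ => sq_nonneg _

theorem lowMass_add_le (d : ℕ) (g h : (ι → Bool) → ℝ) :
    lowMass p d (fun ω => g ω + h ω) ≤ 2 * lowMass p d g + 2 * lowMass p d h := by
  unfold lowMass
  rw [Finset.mul_sum, Finset.mul_sum, ← Finset.sum_add_distrib]
  refine Finset.sum_le_sum fun S _ => ?_
  rw [hat_add]
  nlinarith [sq_nonneg (hat p g S - hat p h S)]

theorem chi_update_of_notMem (S : Finset ι) (e : ι) (he : e ∉ S) (ω : ι → Bool) (b : Bool) :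
    chi p S (Function.update ω e b) = chi p S ω := by
  unfold chi
  refine Finset.prod_congr rfl fun i hi => ?_
  have : i ≠ e := fun h => he (h ▸ hi)
  simp [this]

theorem chi_of_mem (S : Finset ι) (e : ι) (he : e ∈ S) (ω : ι → Bool) :
    chi p S ω = phi p (ω e) * chi p (S.erase e) ω := by
  unfold chi
  rw [Finset.mul_prod_erase S (fun i => phi p (ω i)) he]

theorem Dx_update (e : ι) (g : (ι → Bool) → ℝ) (ω : ι → Bool) (b : Bool) :
    Dx e g (Function.update ω e b) = Dx e g ω := by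
  simp [Dx]

/-- Derivative and Fourier coefficients. -/
theorem hat_eq_sqrt_mul_hat_Dx (hp0 : 0 < p) (hp1 : p < 1) (g : (ι → Bool) → ℝ) (e : ι)
    (S : Finset ι) (he : e ∈ S) :
    hat p g S = Real.sqrt (p * (1 - p)) * hat p (Dx e g) (S.erase e) := by
  have hs := (sqrt_pq_pos hp0 hp1).ne'
  have hsq := sq_sqrt_pq hp0 hp1
  unfold hat
  rw [Ex_eq_update e, ← Ex_const_mul]
  congr 1
  funext ω
  have hT : phi p true = (1 - p) / Real.sqrt (p * (1 - p)) := by simp [phi]
  have hF : phi p false = (-p) / Real.sqrt (p * (1 - p)) := by simp [phi]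
  rw [chi_of_mem S e he, chi_of_mem S e he,
    chi_update_of_notMem _ e (Finset.notMem_erase e S),
    chi_update_of_notMem _ e (Finset.notMem_erase e S)]
  simp only [Function.update_self, hT, hF, Dx]
  field_simp
  rw [hsq]
  ring

theorem hat_Dx_of_mem (hp0 : 0 < p) (hp1 : p < 1) (g : (ι → Bool) → ℝ) (e : ι)
    (S : Finset ι) (he : e ∈ S) : hat p (Dx e g) S = 0 := by
  unfold hat
  have h := Ex_coord_mul (p := p) e (phi p) (fun ω => Dx e g ω * chi p (S.erase e) ω)
    (fun ω b => by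
      rw [Dx_update, chi_update_of_notMem _ e (Finset.notMem_erase e S)])
  rw [mean_phi hp0 hp1, zero_mul] at h
  rw [← h]
  congr 1
  funext ω
  rw [chi_of_mem S e he]
  ring

theorem ind_sq (f : (ι → Bool) → Bool) (ω : ι → Bool) : ind f ω ^ 2 = ind f ω := by
  unfold ind
  split_ifs <;> norm_num

theorem Dx_ind_sq (f : (ι → Bool) → Bool) (e : ι) (ω : ι → Bool) :
    Dx e (ind f) ω ^ 2 =
      if f (Function.update ω e true) ≠ f (Function.update ω e false) then 1 else 0 := by
  unfold Dx ind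
  cases f (Function.update ω e true) <;> cases f (Function.update ω e false) <;> simp

theorem Dx_ind_ne (f : (ι → Bool) → Bool) (e : ι) (ω : ι → Bool) :
    Dx e (ind f) ω ≠ 0 ↔ f (Function.update ω e true) ≠ f (Function.update ω e false) := by
  unfold Dx ind
  cases f (Function.update ω e true) <;> cases f (Function.update ω e false) <;> simp

theorem infl_eq_Ex (f : (ι → Bool) → Bool) (e : ι) :
    infl p f e = Ex p (fun ω =>
      if f (Function.update ω e true) ≠ f (Function.update ω e false) then 1 else 0) := by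
  classical
  unfold infl
  rw [bernoulliProb_eq_Ex]
  rfl

theorem infl_eq_Ex_sq (f : (ι → Bool) → Bool) (e : ι) :
    infl p f e = Ex p (fun ω => Dx e (ind f) ω ^ 2) := by
  rw [infl_eq_Ex]
  simp only [Dx_ind_sq]

theorem infl_eq_Ex_ne (f : (ι → Bool) → Bool) (e : ι) :
    infl p f e = Ex p (fun ω => if Dx e (ind f) ω ≠ 0 then 1 else 0) := by
  rw [infl_eq_Ex]
  simp only [Dx_ind_ne]

theorem infl_nonneg (hp0 : 0 ≤ p) (hp1 : p ≤ 1) (f : (ι → Bool) → Bool) (e : ι) :
    0 ≤ infl p f e := by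
  rw [infl_eq_Ex_sq]
  exact Ex_nonneg hp0 hp1 fun ω => sq_nonneg _

theorem infl_le_one (hp0 : 0 ≤ p) (hp1 : p ≤ 1) (f : (ι → Bool) → Bool) (e : ι) :
    infl p f e ≤ 1 := by
  rw [infl_eq_Ex]
  calc _ ≤ Ex p (fun _ : ι → Bool => (1 : ℝ)) := Ex_mono hp0 hp1 fun ω => by
        split_ifs <;> norm_num
    _ = 1 := Ex_one p

theorem mul_infl_eq (hp0 : 0 < p) (hp1 : p < 1) (f : (ι → Bool) → Bool) (e : ι) :
    p * (1 - p) * infl p f e
      = ∑ S ∈ (univ : Finset (Finset ι)).filter (fun S => e ∈ S), mass p f S := by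
  rw [infl_eq_Ex_sq, parseval_sq hp0 hp1, Finset.mul_sum]
  have h1 : ∑ S : Finset ι, p * (1 - p) * hat p (Dx e (ind f)) S ^ 2
      = ∑ S ∈ (univ : Finset (Finset ι)).filter (fun S => e ∉ S),
          p * (1 - p) * hat p (Dx e (ind f)) S ^ 2 := by
    symm
    apply Finset.sum_filter_of_ne
    intro S _ hS heS
    apply hS
    rw [hat_Dx_of_mem hp0 hp1 _ _ _ heS]
    simp
  rw [h1]
  symm
  refine Finset.sum_bij' (fun S _ => S.erase e) (fun S _ => insert e S) ?_ ?_ ?_ ?_ ?_
  · intro S _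
    simp
  · intro S hS
    simp
  · intro S hS
    simp only [Finset.mem_filter] at hS
    exact Finset.insert_erase hS.2
  · intro S hS
    simp only [Finset.mem_filter] at hS
    exact Finset.erase_insert hS.2
  · intro S hS
    simp only [Finset.mem_filter] at hS
    unfold mass
    rw [hat_eq_sqrt_mul_hat_Dx hp0 hp1 _ e S hS.2, mul_pow, sq_sqrt_pq hp0 hp1]

theorem mul_totInf_eq (hp0 : 0 < p) (hp1 : p < 1) (f : (ι → Bool) → Bool) :
    p * (1 - p) * totInf p f = ∑ S : Finset ι, (S.card : ℝ) * mass p f S := by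
  unfold totInf
  rw [Finset.mul_sum]
  simp only [mul_infl_eq hp0 hp1, Finset.sum_filter]
  rw [Finset.sum_comm]
  refine Finset.sum_congr rfl fun S _ => ?_
  rw [← Finset.sum_filter]
  simp [Finset.filter_mem_eq_inter]

theorem hat_empty (g : (ι → Bool) → ℝ) : hat p g ∅ = Ex p g := by
  simp [hat, chi_empty]

/-- Variance formula. -/
theorem vari_eq (hp0 : 0 < p) (hp1 : p < 1) (f : (ι → Bool) → Bool) :
    vari p f = Ex p (ind f) * (1 - Ex p (ind f)) := by
  have h := parseval_sq hp0 hp1 (ind f)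
  simp only [ind_sq] at h
  have h2 : ∑ S : Finset ι, hat p (ind f) S ^ 2 = hat p (ind f) ∅ ^ 2 + vari p f := by
    unfold vari mass
    rw [← Finset.sum_filter_add_sum_filter_not univ (fun S => S ≠ (∅ : Finset ι))]
    rw [add_comm]
    congr 1
    have : (univ : Finset (Finset ι)).filter (fun S => ¬ S ≠ ∅) = {∅} := by
      ext S; simp
    rw [this]; simp
  rw [h2, hat_empty] at h
  have h3 : Ex p (fun ω => ind f ω) = Ex p (ind f) := rfl
  rw [h3] at h
  linarith [h, sq (Ex p (ind f))]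

theorem mass_nonneg (f : (ι → Bool) → Bool) (S : Finset ι) : 0 ≤ mass p f S := sq_nonneg _

/-- Poincare. -/
theorem vari_le (hp0 : 0 < p) (hp1 : p < 1) (f : (ι → Bool) → Bool) :
    vari p f ≤ p * (1 - p) * totInf p f := by
  rw [mul_totInf_eq hp0 hp1]
  unfold vari
  rw [Finset.sum_filter]
  refine Finset.sum_le_sum fun S _ => ?_
  split_ifs with h
  · have h1 : (1 : ℝ) ≤ (S.card : ℝ) := by
      exact_mod_cast Finset.card_pos.mpr (Finset.nonempty_iff_ne_empty.mpr h)
    nlinarith [mass_nonneg (p := p) f S]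
  · exact mul_nonneg (Nat.cast_nonneg _) (mass_nonneg f S)

theorem vari_le_quarter (hp0 : 0 < p) (hp1 : p < 1) (f : (ι → Bool) → Bool) :
    vari p f ≤ 1 / 4 := by
  rw [vari_eq hp0 hp1]
  nlinarith [sq_nonneg (Ex p (ind f) - 1 / 2)]

theorem vari_nonneg (f : (ι → Bool) → Bool) : 0 ≤ vari p f :=
  Finset.sum_nonneg fun S _ => mass_nonneg f S

end Fourier

/-! Interface with the Prelude definitions. -/

open Crest.CombinatoricsR.HypergraphCube in
theorem probTrue_eq {n r : ℕ} (p : ℝ) (f : (HyperedgeSlot n r → Bool) → Bool) :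
    probTrue p f = Ex p (ind f) := by
  classical
  unfold probTrue
  rw [bernoulliProb_eq_Ex]
  rfl

open Crest.CombinatoricsR.HypergraphCube in
theorem totalInfluence_eq {n r : ℕ} (p : ℝ) (f : (HyperedgeSlot n r → Bool) → Bool) :
    totalInfluence p f = totInf p f := rfl

end Crest.Agent.R056
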