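import Crest.Agent.R056.Defs2
import Crest.Agent.R056.Fourier

/-! Row 56: product measures with coordinate-dependent biases, the noise operator `Tn`, and the
pointwise (Bessel) gradient bound. OWNER: helper406. -/

set_option autoImplicit false
set_option linter.unusedSectionVars false

namespace Crest.Agent.R056

open Finset Crest.FinProb

section Noise

variable {ι : Type*} [Fintype ι] [DecidableEq ι] {p δ : ℝ}

/-- Product weight with bias `ν i` at the coordinate `i`. -/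
noncomputable def wt (ν : ι → ℝ) (x : ι → Bool) : ℝ := ∏ i, if x i then ν i else 1 - ν i

theorem EW_def (ν : ι → ℝ) (g : (ι → Bool) → ℝ) : EW ν g = ∑ x : ι → Bool, wt ν x * g x := rfl

/-- weight without the coordinate `e` -/
noncomputable def wte (ν : ι → ℝ) (e : ι) (x : ι → Bool) : ℝ :=
  ∏ i ∈ univ.erase e, if x i then ν i else 1 - ν i

theorem wt_eq (ν : ι → ℝ) (e : ι) (x : ι → Bool) :
    wt ν x = (if x e then ν e else 1 - ν e) * wte ν e x := by
  unfold wt wte
  rw [Finset.mul_prod_erase univ (fun i => if x i then ν i else 1 - ν i) (Finset.mem_univ e)]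

theorem wte_update (ν : ι → ℝ) (e : ι) (x : ι → Bool) (b : Bool) :
    wte ν e (Function.update x e b) = wte ν e x := by
  unfold wte
  apply Finset.prod_congr rfl
  intro i hi
  rw [Function.update_of_ne (Finset.ne_of_mem_erase hi)]

theorem wte_update_left (ν : ι → ℝ) (e : ι) (x : ι → Bool) (a : ℝ) :
    wte (Function.update ν e a) e x = wte ν e x := by
  unfold wte
  apply Finset.prod_congr rfl
  intro i hi
  rw [Function.update_of_ne (Finset.ne_of_mem_erase hi)]

/-- flipping one coordinate, as an equivalence -/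
def flipE (e : ι) : (ι → Bool) ≃ (ι → Bool) where
  toFun x := Function.update x e (!x e)
  invFun x := Function.update x e (!x e)
  left_inv x := by
    ext i
    by_cases h : i = e
    · subst h; simp
    · simp [h]
  right_inv x := by
    ext i
    by_cases h : i = e
    · subst h; simp
    · simp [h]

/-- The basic one-coordinate identity. -/
theorem two_mul_EW (ν : ι → ℝ) (e : ι) (g : (ι → Bool) → ℝ) :
    2 * EW ν g = ∑ x : ι → Bool, wte ν e x *
      (ν e * g (Function.update x e true) + (1 - ν e) * g (Function.update x e false)) := by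
  have h1 : EW ν g = ∑ x : ι → Bool, wt ν (flipE e x) * g (flipE e x) := by
    simp only [EW_def]
    exact (Equiv.sum_comp (flipE e) (fun x => wt ν x * g x)).symm
  have h2 : 2 * EW ν g = EW ν g + ∑ x : ι → Bool, wt ν (flipE e x) * g (flipE e x) := by
    rw [← h1]; ring
  rw [h2]
  simp only [EW_def]
  rw [← Finset.sum_add_distrib]
  apply Finset.sum_congr rfl
  intro x _
  have e1 : flipE e x = Function.update x e (!x e) := rfl
  rw [e1, wt_eq ν e x, wt_eq ν e (Function.update x e (!x e)), wte_update]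
  rw [Function.update_self]
  cases hx : x e with
  | false =>
    have h3 : Function.update x e false = x := by
      rw [← hx]; exact Function.update_eq_self e x
    simp only [Bool.not_false, if_true, h3]
    simp
    ring
  | true =>
    have h3 : Function.update x e true = x := by
      rw [← hx]; exact Function.update_eq_self e x
    simp only [Bool.not_true, if_true, h3]
    simp
    ring

theorem EW_add (ν : ι → ℝ) (g h : (ι → Bool) → ℝ) :
    EW ν (fun x => g x + h x) = EW ν g + EW ν h := by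
  simp only [EW_def]
  rw [← Finset.sum_add_distrib]
  apply Finset.sum_congr rfl
  intro x _
  ring

theorem EW_sub (ν : ι → ℝ) (g h : (ι → Bool) → ℝ) :
    EW ν (fun x => g x - h x) = EW ν g - EW ν h := by
  simp only [EW_def]
  rw [← Finset.sum_sub_distrib]
  apply Finset.sum_congr rfl
  intro x _
  ring

theorem EW_const_mul (ν : ι → ℝ) (c : ℝ) (g : (ι → Bool) → ℝ) :
    EW ν (fun x => c * g x) = c * EW ν g := by
  simp only [EW_def]
  rw [Finset.mul_sum]
  apply Finset.sum_congr rfl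
  intro x _
  ring

theorem EW_sum {κ : Type*} (ν : ι → ℝ) (s : Finset κ) (g : κ → (ι → Bool) → ℝ) :
    EW ν (fun x => ∑ k ∈ s, g k x) = ∑ k ∈ s, EW ν (g k) := by
  simp only [EW_def]
  rw [Finset.sum_comm]
  apply Finset.sum_congr rfl
  intro x _
  rw [Finset.mul_sum]

theorem wt_nonneg {ν : ι → ℝ} (h0 : ∀ i, 0 ≤ ν i) (h1 : ∀ i, ν i ≤ 1) (x : ι → Bool) :
    0 ≤ wt ν x := by
  unfold wt
  apply Finset.prod_nonneg
  intro i _
  split_ifs
  · exact h0 i
  · linarith [h1 i]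

theorem EW_nonneg {ν : ι → ℝ} (h0 : ∀ i, 0 ≤ ν i) (h1 : ∀ i, ν i ≤ 1)
    {g : (ι → Bool) → ℝ} (hg : ∀ x, 0 ≤ g x) : 0 ≤ EW ν g := by
  simp only [EW_def]
  apply Finset.sum_nonneg
  intro x _
  exact mul_nonneg (wt_nonneg h0 h1 x) (hg x)

theorem EW_mono {ν : ι → ℝ} (h0 : ∀ i, 0 ≤ ν i) (h1 : ∀ i, ν i ≤ 1)
    {g h : (ι → Bool) → ℝ} (hg : ∀ x, g x ≤ h x) : EW ν g ≤ EW ν h := by
  simp only [EW_def]
  apply Finset.sum_le_sum
  intro x _
  exact mul_le_mul_of_nonneg_left (hg x) (wt_nonneg h0 h1 x)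

theorem EW_prod (ν : ι → ℝ) (u : ι → Bool → ℝ) :
    EW ν (fun x => ∏ i, u i (x i)) = ∏ i, (ν i * u i true + (1 - ν i) * u i false) := by
  simp only [EW_def]
  unfold wt
  have h1 : ∀ i, (ν i * u i true + (1 - ν i) * u i false)
      = ∑ b : Bool, (if b then ν i else 1 - ν i) * u i b := by
    intro i
    simp
  rw [Finset.prod_congr rfl (fun i _ => h1 i)]
  rw [Finset.prod_univ_sum]
  rw [Fintype.piFinset_univ]
  apply Finset.sum_congr rfl
  intro x _
  rw [← Finset.prod_mul_distrib]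

theorem EW_one (ν : ι → ℝ) : EW ν (fun _ => (1 : ℝ)) = 1 := by
  have h := EW_prod ν (fun _ _ => (1 : ℝ))
  simpa using h

/-- centered coordinate -/
noncomputable def ctr (ν : ι → ℝ) (e : ι) (x : ι → Bool) : ℝ := (if x e then 1 else 0) - ν e

theorem EW_mul_ctr (ν : ι → ℝ) (e : ι) (g : (ι → Bool) → ℝ) :
    EW ν (fun x => g x * ctr ν e x) = ν e * (1 - ν e) * EW ν (Dx e g) := by
  have h1 := two_mul_EW ν e (fun x => g x * ctr ν e x)
  have h2 := two_mul_EW ν e (Dx e g)
  have h3 : 2 * EW ν (fun x => g x * ctr ν e x) = 2 * (ν e * (1 - ν e) * EW ν (Dx e g)) := by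
    have : 2 * (ν e * (1 - ν e) * EW ν (Dx e g)) = ν e * (1 - ν e) * (2 * EW ν (Dx e g)) := by
      ring
    rw [this, h1, h2, Finset.mul_sum]
    apply Finset.sum_congr rfl
    intro x _
    simp only [ctr, Dx, Function.update_self, Function.update_idem]
    simp
    ring
  linarith

theorem Dx_ctr (ν : ι → ℝ) (e i : ι) (x : ι → Bool) :
    Dx e (ctr ν i) x = if e = i then 1 else 0 := by
  unfold Dx ctr
  by_cases h : e = i
  · subst h
    simp
  · have h' : i ≠ e := fun h2 => h h2.symm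
    simp [Function.update_of_ne h', h]

theorem EW_ctr_mul_ctr (ν : ι → ℝ) (e i : ι) :
    EW ν (fun x => ctr ν i x * ctr ν e x) = if e = i then ν e * (1 - ν e) else 0 := by
  rw [EW_mul_ctr]
  have : Dx e (ctr ν i) = fun _ => if e = i then (1 : ℝ) else 0 := by
    funext x
    exact Dx_ctr ν e i x
  rw [this]
  by_cases h : e = i
  · simp only [h, if_true]
    rw [EW_one, mul_one]
  · simp only [h, if_false]
    have : EW ν (fun _ : ι → Bool => (0 : ℝ)) = 0 := by
      simp [EW_def]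
    rw [this, mul_zero]

/-- Bessel's inequality for the first-level coefficients. -/
theorem bessel {ν : ι → ℝ} (h0 : ∀ i, 0 ≤ ν i) (h1 : ∀ i, ν i ≤ 1) (g : (ι → Bool) → ℝ) :
    ∑ e, ν e * (1 - ν e) * EW ν (Dx e g) ^ 2 ≤ EW ν (fun x => g x ^ 2) := by
  set c : ι → ℝ := fun e => EW ν (Dx e g) with hc
  have hpos : 0 ≤ EW ν (fun x => (g x - ∑ e, c e * ctr ν e x) ^ 2) :=
    EW_nonneg h0 h1 (fun x => sq_nonneg _)
  have hexp : (fun x => (g x - ∑ e, c e * ctr ν e x) ^ 2)
      = fun x => (g x ^ 2 - ∑ e, (2 * c e) * (g x * ctr ν e x))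
        + ∑ e, ∑ i, (c e * c i) * (ctr ν i x * ctr ν e x) := by
    funext x
    have h2 : (∑ e, c e * ctr ν e x) ^ 2
        = ∑ e, ∑ i, (c e * c i) * (ctr ν i x * ctr ν e x) := by
      rw [sq, Finset.sum_mul_sum]
      apply Finset.sum_congr rfl
      intro e _
      apply Finset.sum_congr rfl
      intro i _
      ring
    have h3 : ∑ e, (2 * c e) * (g x * ctr ν e x) = 2 * g x * ∑ e, c e * ctr ν e x := by
      rw [Finset.mul_sum]
      apply Finset.sum_congr rfl
      intro e _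
      ring
    rw [h3, ← h2]
    ring
  rw [hexp, EW_add, EW_sub, EW_sum, EW_sum] at hpos
  have h4 : ∑ e, EW ν (fun x => (2 * c e) * (g x * ctr ν e x))
      = 2 * ∑ e, ν e * (1 - ν e) * c e ^ 2 := by
    rw [Finset.mul_sum]
    apply Finset.sum_congr rfl
    intro e _
    rw [EW_const_mul, EW_mul_ctr]
    simp only [hc]
    ring
  have h5 : ∑ e, EW ν (fun x => ∑ i, (c e * c i) * (ctr ν i x * ctr ν e x))
      = ∑ e, ν e * (1 - ν e) * c e ^ 2 := by
    apply Finset.sum_congr rfl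
    intro e _
    rw [EW_sum]
    have : ∀ i ∈ (univ : Finset ι), EW ν (fun x => (c e * c i) * (ctr ν i x * ctr ν e x))
        = if e = i then (c e * c i) * (ν e * (1 - ν e)) else 0 := by
      intro i _
      rw [EW_const_mul, EW_ctr_mul_ctr]
      split_ifs <;> simp
    rw [Finset.sum_congr rfl this]
    simp
    ring
  rw [h4, h5] at hpos
  linarith

theorem nu_update (ω : ι → Bool) (e : ι) (b : Bool) :
    nu p δ (Function.update ω e b)
      = Function.update (nu p δ ω) e ((1 - δ) * (if b then 1 else 0) + δ * p) := by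
  funext i
  by_cases h : i = e
  · subst h
    simp [nu]
  · simp [nu, Function.update_of_ne h]

/-- The derivative of the noise operator. -/
theorem Dx_Tn_EW (e : ι) (g : (ι → Bool) → ℝ) (ω : ι → Bool) :
    Dx e (Tn p δ g) ω = (1 - δ) * EW (nu p δ ω) (Dx e g) := by
  have h1 : ∀ a : ℝ, 2 * EW (Function.update (nu p δ ω) e a) g
      = ∑ x : ι → Bool, wte (nu p δ ω) e x *
        (a * g (Function.update x e true) + (1 - a) * g (Function.update x e false)) := by
    intro a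
    rw [two_mul_EW _ e g]
    apply Finset.sum_congr rfl
    intro x _
    rw [wte_update_left, Function.update_self]
  have h2 : 2 * EW (nu p δ ω) (Dx e g)
      = ∑ x : ι → Bool, wte (nu p δ ω) e x *
        (g (Function.update x e true) - g (Function.update x e false)) := by
    rw [two_mul_EW _ e (Dx e g)]
    apply Finset.sum_congr rfl
    intro x _
    simp only [Dx, Function.update_idem]
    ring
  have h3 : 2 * Dx e (Tn p δ g) ω = 2 * ((1 - δ) * EW (nu p δ ω) (Dx e g)) := by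
    have e1 : 2 * ((1 - δ) * EW (nu p δ ω) (Dx e g))
        = (1 - δ) * (2 * EW (nu p δ ω) (Dx e g)) := by ring
    rw [e1, h2]
    have e2 : 2 * Dx e (Tn p δ g) ω
        = 2 * EW (nu p δ (Function.update ω e true)) g
          - 2 * EW (nu p δ (Function.update ω e false)) g := by
      simp only [Dx, Tn]
      ring
    rw [e2, nu_update, nu_update, h1, h1, ← Finset.sum_sub_distrib, Finset.mul_sum]
    apply Finset.sum_congr rfl
    intro x _
    simp
    ring
  linarith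

theorem nu_nonneg (hp0 : 0 ≤ p) (hδ0 : 0 ≤ δ) (hδ1 : δ ≤ 1) (ω : ι → Bool) (i : ι) :
    0 ≤ nu p δ ω i := by
  unfold nu
  have h1 : 0 ≤ (1 - δ) * (if ω i then (1 : ℝ) else 0) := by
    apply mul_nonneg (by linarith)
    split_ifs <;> norm_num
  have h2 : 0 ≤ δ * p := mul_nonneg hδ0 hp0
  linarith

theorem nu_le_one (hp1 : p ≤ 1) (hδ0 : 0 ≤ δ) (hδ1 : δ ≤ 1) (ω : ι → Bool) (i : ι) :
    nu p δ ω i ≤ 1 := by
  unfold nu
  have h1 : (1 - δ) * (if ω i then (1 : ℝ) else 0) ≤ 1 - δ := by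
    have : (if ω i then (1 : ℝ) else 0) ≤ 1 := by split_ifs <;> norm_num
    nlinarith
  have h2 : δ * p ≤ δ := by nlinarith
  linarith

theorem nu_var (hp0 : 0 ≤ p) (hp1 : p ≤ 1) (hδ0 : 0 ≤ δ) (hδ1 : δ ≤ 1) (ω : ι → Bool) (i : ι) :
    δ * (p * (1 - p)) ≤ nu p δ ω i * (1 - nu p δ ω i) := by
  unfold nu
  split_ifs
  · have e1 : ((1 - δ) * 1 + δ * p) * (1 - ((1 - δ) * 1 + δ * p))
        = δ * (1 - p) * (1 - δ * (1 - p)) := by ring
    rw [e1]
    have h1 : p ≤ 1 - δ * (1 - p) := by nlinarith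
    have h2 : 0 ≤ δ * (1 - p) := mul_nonneg hδ0 (by linarith)
    nlinarith [mul_le_mul_of_nonneg_left h1 h2]
  · have e1 : ((1 - δ) * 0 + δ * p) * (1 - ((1 - δ) * 0 + δ * p))
        = δ * p * (1 - δ * p) := by ring
    rw [e1]
    have h1 : 1 - p ≤ 1 - δ * p := by nlinarith
    have h2 : 0 ≤ δ * p := mul_nonneg hδ0 hp0
    nlinarith [mul_le_mul_of_nonneg_left h1 h2]

/-- The pointwise gradient bound. -/
theorem grad_bound (hp0 : 0 < p) (hp1 : p < 1) (hδ0 : 0 < δ) (hδ1 : δ ≤ 1)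
    (g : (ι → Bool) → ℝ) (hg : ∀ ω, |g ω| ≤ 1) (ω : ι → Bool) :
    ∑ e, Dx e (Tn p δ g) ω ^ 2 ≤ 1 / (δ * (p * (1 - p))) := by
  have h0 := nu_nonneg (ι := ι) hp0.le hδ0.le hδ1 ω
  have h1 := nu_le_one (ι := ι) hp1.le hδ0.le hδ1 ω
  have hq : 0 < 1 - p := by linarith
  have hpos : 0 < δ * (p * (1 - p)) := by positivity
  have hb := bessel h0 h1 g
  have hg2 : EW (nu p δ ω) (fun x => g x ^ 2) ≤ 1 := by
    have := EW_mono h0 h1 (g := fun x => g x ^ 2) (h := fun _ => (1 : ℝ)) (fun x => by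
      have h := hg x
      have h' := abs_nonneg (g x)
      rw [← sq_abs]
      nlinarith)
    rw [EW_one] at this
    exact this
  rw [le_div_iff₀ hpos, Finset.sum_mul]
  calc ∑ e, Dx e (Tn p δ g) ω ^ 2 * (δ * (p * (1 - p)))
      ≤ ∑ e, nu p δ ω e * (1 - nu p δ ω e) * EW (nu p δ ω) (Dx e g) ^ 2 := by
        apply Finset.sum_le_sum
        intro e _
        rw [Dx_Tn_EW]
        have h2 := nu_var (ι := ι) hp0.le hp1.le hδ0.le hδ1 ω e
        have h3 : 0 ≤ EW (nu p δ ω) (Dx e g) ^ 2 := sq_nonneg _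
        have h4 : ((1 - δ) * EW (nu p δ ω) (Dx e g)) ^ 2 ≤ EW (nu p δ ω) (Dx e g) ^ 2 := by
          rw [mul_pow]
          have h5 : (1 - δ) ^ 2 ≤ 1 := by nlinarith
          nlinarith
        calc ((1 - δ) * EW (nu p δ ω) (Dx e g)) ^ 2 * (δ * (p * (1 - p)))
            ≤ EW (nu p δ ω) (Dx e g) ^ 2 * (δ * (p * (1 - p))) :=
              mul_le_mul_of_nonneg_right h4 hpos.le
          _ ≤ EW (nu p δ ω) (Dx e g) ^ 2 * (nu p δ ω e * (1 - nu p δ ω e)) :=
              mul_le_mul_of_nonneg_left h2 h3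
          _ = nu p δ ω e * (1 - nu p δ ω e) * EW (nu p δ ω) (Dx e g) ^ 2 := by ring
    _ ≤ EW (nu p δ ω) (fun x => g x ^ 2) := hb
    _ ≤ 1 := hg2

/-- The noise operator on characters. -/
theorem Tn_chi (hp0 : 0 < p) (hp1 : p < 1) (S : Finset ι) (ω : ι → Bool) :
    Tn p δ (chi p S) ω = (1 - δ) ^ S.card * chi p S ω := by
  have hs : 0 < Real.sqrt (p * (1 - p)) := Real.sqrt_pos.2 (mul_pos hp0 (by linarith))
  unfold Tn
  have h1 : (chi p S : (ι → Bool) → ℝ)
      = fun x => ∏ i, (if i ∈ S then phi p (x i) else 1) := by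
    funext x
    unfold chi
    rw [Finset.prod_ite_mem]
    simp
  have h0 : EW (nu p δ ω) (chi p S) = ∏ i, (nu p δ ω i * (if i ∈ S then phi p true else 1)
      + (1 - nu p δ ω i) * (if i ∈ S then phi p false else 1)) := by
    rw [h1]
    exact EW_prod (nu p δ ω) (fun i b => if i ∈ S then phi p b else 1)
  have h2 : ∀ i ∈ (univ : Finset ι), (nu p δ ω i * (if i ∈ S then phi p true else 1)
      + (1 - nu p δ ω i) * (if i ∈ S then phi p false else 1))
      = if i ∈ S then (1 - δ) * phi p (ω i) else 1 := by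
    intro i _
    split_ifs with h
    · unfold nu phi
      cases ω i
      · simp
        field_simp
        ring
      · simp
        field_simp
        ring
    · ring
  rw [h0, Finset.prod_congr rfl h2, Finset.prod_ite_mem]
  simp only [Finset.univ_inter]
  rw [Finset.prod_mul_distrib, Finset.prod_const]
  rfl

theorem Tn_eq_sum (hp0 : 0 < p) (hp1 : p < 1) (g : (ι → Bool) → ℝ) (ω : ι → Bool) :
    Tn p δ g ω = ∑ S : Finset ι, ((1 - δ) ^ S.card * hat p g S) * chi p S ω := by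
  have h1 : g = fun x => ∑ S : Finset ι, hat p g S * chi p S x := by
    funext x
    exact expansion hp0 hp1 g x
  have h2 : Tn p δ g ω = EW (nu p δ ω) (fun x => ∑ S : Finset ι, hat p g S * chi p S x) := by
    unfold Tn
    rw [← h1]
  rw [h2, EW_sum]
  apply Finset.sum_congr rfl
  intro S _
  rw [EW_const_mul]
  have h3 := Tn_chi (δ := δ) hp0 hp1 S ω
  unfold Tn at h3
  rw [h3]
  ring

/-- The noise operator on Fourier coefficients. -/
theorem hat_Tn (hp0 : 0 < p) (hp1 : p < 1) (g : (ι → Bool) → ℝ) (S : Finset ι) :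
    hat p (Tn p δ g) S = (1 - δ) ^ S.card * hat p g S := by
  have h1 : Tn p δ g = fun ω => ∑ T ∈ (univ : Finset (Finset ι)),
      ((1 - δ) ^ T.card * hat p g T) * chi p T ω := by
    funext ω
    exact Tn_eq_sum hp0 hp1 g ω
  rw [h1]
  have := hat_sum_chi hp0 hp1 (univ : Finset (Finset ι))
    (fun T => (1 - δ) ^ T.card * hat p g T) S
  rw [this]
  simp

theorem Ex_Tn (hp0 : 0 < p) (hp1 : p < 1) (g : (ι → Bool) → ℝ) :
    Ex p (Tn p δ g) = Ex p g := by
  have h := hat_Tn (δ := δ) hp0 hp1 g ∅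
  unfold hat at h
  simp only [chi_empty, mul_one, Finset.card_empty, pow_zero, one_mul] at h
  exact h

theorem abs_EW_le {ν : ι → ℝ} (h0 : ∀ i, 0 ≤ ν i) (h1 : ∀ i, ν i ≤ 1) (g : (ι → Bool) → ℝ) :
    |EW ν g| ≤ EW ν (fun x => |g x|) := by
  simp only [EW_def]
  refine (Finset.abs_sum_le_sum_abs _ _).trans ?_
  apply Finset.sum_le_sum
  intro x _
  rw [abs_mul, abs_of_nonneg (wt_nonneg h0 h1 x)]

/-- `L¹` contraction of the gradient of the noise operator. -/
theorem Ex_abs_Dx_Tn_le' (hp0 : 0 < p) (hp1 : p < 1) (hδ0 : 0 ≤ δ) (hδ1 : δ ≤ 1)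
    (g : (ι → Bool) → ℝ) (e : ι) :
    Ex p (fun ω => |Dx e (Tn p δ g) ω|) ≤ Ex p (fun ω => |Dx e g ω|) := by
  rw [← Ex_Tn (δ := δ) hp0 hp1 (fun ω => |Dx e g ω|)]
  apply Ex_mono hp0.le hp1.le
  intro ω
  have h0 := nu_nonneg (ι := ι) hp0.le hδ0 hδ1 ω
  have h1 := nu_le_one (ι := ι) hp1.le hδ0 hδ1 ω
  rw [Dx_Tn_EW, abs_mul, abs_of_nonneg (by linarith : (0 : ℝ) ≤ 1 - δ)]
  have h2 := abs_EW_le h0 h1 (Dx e g)
  have h3 : 0 ≤ EW (nu p δ ω) (fun x => |Dx e g x|) := EW_nonneg h0 h1 (fun x => abs_nonneg _)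
  have h4 : 0 ≤ |EW (nu p δ ω) (Dx e g)| := abs_nonneg _
  calc (1 - δ) * |EW (nu p δ ω) (Dx e g)| ≤ 1 * |EW (nu p δ ω) (Dx e g)| := by
        apply mul_le_mul_of_nonneg_right (by linarith) h4
    _ ≤ EW (nu p δ ω) (fun x => |Dx e g x|) := by linarith

theorem Dx_Tn (F : (ι → Bool) → ℝ) (e : ι) (x : ι → Bool) :
    Dx e (Tn p δ F) x = (1 - δ) * Tn p δ (Dx e F) x := Dx_Tn_EW e F x

theorem abs_Dx_ind (f : (ι → Bool) → Bool) (e : ι) (x : ι → Bool) :
    |Dx e (ind f) x| = Dx e (ind f) x ^ 2 := by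
  unfold Dx ind
  split_ifs <;> simp

theorem Ex_abs_Dx_Tn_le (hp0 : 0 < p) (hp1 : p < 1) (hδ0 : 0 ≤ δ) (hδ1 : δ ≤ 1)
    (f : (ι → Bool) → Bool) (e : ι) :
    Ex p (fun x => |Dx e (Tn p δ (ind f)) x|) ≤ infl p f e := by
  refine (Ex_abs_Dx_Tn_le' hp0 hp1 hδ0 hδ1 (ind f) e).trans (le_of_eq ?_)
  rw [infl_eq_Ex_sq]
  congr 1
  funext x
  exact abs_Dx_ind f e x

/-- The noise operator commutes with renaming coordinates. -/
theorem Tn_comp_equiv (τ : ι ≃ ι) (g : (ι → Bool) → ℝ) (hg : ∀ ω, g (ω ∘ τ) = g ω)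
    (ω : ι → Bool) : Tn p δ g (ω ∘ τ) = Tn p δ g ω := by
  unfold Tn
  simp only [EW_def]
  symm
  apply Fintype.sum_equiv (Equiv.arrowCongr τ.symm (Equiv.refl Bool))
  intro x
  have e1 : (Equiv.arrowCongr τ.symm (Equiv.refl Bool)) x = x ∘ τ := by
    funext i
    simp [Equiv.arrowCongr]
  rw [e1, hg x]
  congr 1
  unfold wt nu
  symm
  apply Fintype.prod_equiv τ
  intro i
  simp

theorem abs_Tn_le_one (hp0 : 0 ≤ p) (hp1 : p ≤ 1) (hδ0 : 0 ≤ δ) (hδ1 : δ ≤ 1)
    (g : (ι → Bool) → ℝ) (hg : ∀ ω, |g ω| ≤ 1) (ω : ι → Bool) : |Tn p δ g ω| ≤ 1 := by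
  have h0 := nu_nonneg (ι := ι) hp0 hδ0 hδ1 ω
  have h1 := nu_le_one (ι := ι) hp1 hδ0 hδ1 ω
  refine (abs_EW_le h0 h1 g).trans ?_
  have := EW_mono h0 h1 (g := fun x => |g x|) (h := fun _ => (1 : ℝ)) hg
  rw [EW_one] at this
  exact this

end Noise

end Crest.Agent.R056
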