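import Crest.Agent.R056.Defs2
import Crest.Agent.R056.Fourier
import Crest.Agent.R056.Bonami
import Crest.Agent.R056V.Cube

/-! Row 56: rerandomizing a set `J` of coordinates; conditional level inequality.
Uses helper723's averaging library `R056V.Cube`. -/

set_option autoImplicit false
set_option linter.unusedSectionVars false

namespace Crest.Agent.R056

open Finset Crest.FinProb

variable {ι : Type*} [Fintype ι] [DecidableEq ι] {p : ℝ}

theorem Ex_eq_V (p : ℝ) (F : (ι → Bool) → ℝ) : Ex p F = R056V.Ex p F := rfl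

theorem EJ_eq_av (p : ℝ) (J : Finset ι) (F : (ι → Bool) → ℝ) (x : ι → Bool) :
    EJ p J F x = R056V.av p J F x := rfl

theorem phi_eq_V (p : ℝ) (b : Bool) : phi p b = R056V.phi p b := by
  cases b <;> simp [phi, R056V.phi]

theorem chi_eq_V (p : ℝ) (S : Finset ι) (x : ι → Bool) : chi p S x = R056V.chi p S x := by
  unfold chi R056V.chi
  exact Finset.prod_congr rfl fun i _ => phi_eq_V p _

theorem hat_eq_V (p : ℝ) (F : (ι → Bool) → ℝ) (S : Finset ι) : hat p F S = R056V.fc p F S := by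
  unfold hat R056V.fc
  rw [Ex_eq_V]
  exact R056V.Ex_congr p fun x => by rw [chi_eq_V]

theorem Ex_EJ (J : Finset ι) (F : (ι → Bool) → ℝ) : Ex p (EJ p J F) = Ex p F :=
  R056V.Ex_av p J F

theorem EJ_EJ (J J' : Finset ι) (F : (ι → Bool) → ℝ) (x : ι → Bool) :
    EJ p J (EJ p J' F) x = EJ p (J ∪ J') F x := R056V.av_av p J J' F x

theorem EJ_mono (hp0 : 0 ≤ p) (hp1 : p ≤ 1) (J : Finset ι) {F G : (ι → Bool) → ℝ}
    (h : ∀ ω, F ω ≤ G ω) (x : ι → Bool) : EJ p J F x ≤ EJ p J G x :=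
  Ex_mono hp0 hp1 fun _ => h _

theorem Ex_sq_le (hp0 : 0 ≤ p) (hp1 : p ≤ 1) (F : (ι → Bool) → ℝ) :
    Ex p F ^ 2 ≤ Ex p (fun y => F y ^ 2) := by
  have h := Ex_mul_sq_le hp0 hp1 (fun _ => (1 : ℝ)) F
  simpa [Ex_const] using h

theorem EJ_sq_le (hp0 : 0 ≤ p) (hp1 : p ≤ 1) (J : Finset ι) (F : (ι → Bool) → ℝ)
    (x : ι → Bool) : EJ p J F x ^ 2 ≤ EJ p J (fun y => F y ^ 2) x :=
  Ex_sq_le hp0 hp1 fun y => F (mix J x y)

theorem abs_EJ_le (hp0 : 0 ≤ p) (hp1 : p ≤ 1) (J : Finset ι) (F : (ι → Bool) → ℝ)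
    (x : ι → Bool) : |EJ p J F x| ≤ EJ p J (fun y => |F y|) x :=
  R056V.abs_Ex_le hp0 hp1 _

theorem Ex_abs_EJ_le (hp0 : 0 ≤ p) (hp1 : p ≤ 1) (J : Finset ι) (F : (ι → Bool) → ℝ) :
    Ex p (fun x => |EJ p J F x|) ≤ Ex p (fun x => |F x|) := by
  rw [← Ex_EJ (p := p) J (fun x => |F x|)]
  exact Ex_mono hp0 hp1 fun x => abs_EJ_le hp0 hp1 J F x

theorem mix_update_left (J : Finset ι) (e : ι) (he : e ∉ J) (x y : ι → Bool) (b : Bool) :
    mix J (Function.update x e b) y = Function.update (mix J x y) e b := by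
  funext i
  by_cases hi : i = e
  · subst hi
    simp [mix, he]
  · simp [mix, Function.update_of_ne hi]

theorem Dx_EJ (J : Finset ι) (e : ι) (he : e ∉ J) (F : (ι → Bool) → ℝ) (x : ι → Bool) :
    Dx e (EJ p J F) x = EJ p J (Dx e F) x := by
  unfold Dx EJ
  rw [← Ex_sub]
  congr 1
  funext y
  rw [mix_update_left J e he, mix_update_left J e he]

theorem hat_EJ (hp0 : 0 < p) (hp1 : p < 1) (J : Finset ι) (F : (ι → Bool) → ℝ)
    (S : Finset ι) : hat p (EJ p J F) S = if Disjoint S J then hat p F S else 0 := by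
  rw [hat_eq_V, hat_eq_V]
  exact R056V.fc_av hp0 hp1 J F S

theorem chi_mix (p : ℝ) (J S : Finset ι) (x y : ι → Bool) :
    chi p S (mix J x y) = chi p (S ∩ J) y * chi p (S \ J) x := by
  unfold chi
  rw [← Finset.prod_sdiff (Finset.inter_subset_left : S ∩ J ⊆ S), Finset.sdiff_inter_self_left,
    mul_comm]
  congr 1
  · refine Finset.prod_congr rfl fun i hi => ?_
    simp [mix, (Finset.mem_inter.mp hi).2]
  · refine Finset.prod_congr rfl fun i hi => ?_
    simp [mix, (Finset.mem_sdiff.mp hi).2]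

/-- Fourier coefficients of the restricted function. -/
theorem hat_mix (hp0 : 0 < p) (hp1 : p < 1) (J : Finset ι) (F : (ι → Bool) → ℝ)
    (T : Finset ι) (x : ι → Bool) :
    hat p (fun y => F (mix J x y)) T
      = ∑ S ∈ (univ : Finset (Finset ι)).filter (fun S => S ∩ J = T),
          hat p F S * chi p (S \ J) x := by
  unfold hat
  have h : ∀ y, F (mix J x y) * chi p T y
      = ∑ S : Finset ι, (hat p F S * chi p (S \ J) x) * (chi p (S ∩ J) y * chi p T y) := by
    intro y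
    rw [expansion hp0 hp1 F (mix J x y), Finset.sum_mul]
    refine Finset.sum_congr rfl fun S _ => ?_
    rw [chi_mix]
    ring
  simp only [h]
  rw [Ex_sum]
  rw [Finset.sum_filter]
  refine Finset.sum_congr rfl fun S _ => ?_
  rw [Ex_const_mul, Ex_chi_mul_chi hp0 hp1]
  split_ifs with hST
  · rw [mul_one]; rfl
  · rw [mul_zero]

theorem Ex_hat_mix_sq (hp0 : 0 < p) (hp1 : p < 1) (J : Finset ι) (F : (ι → Bool) → ℝ)
    (T : Finset ι) :
    Ex p (fun x => hat p (fun y => F (mix J x y)) T ^ 2)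
      = ∑ S ∈ (univ : Finset (Finset ι)).filter (fun S => S ∩ J = T), hat p F S ^ 2 := by
  simp only [hat_mix hp0 hp1]
  have h : ∀ x, (∑ S ∈ (univ : Finset (Finset ι)).filter (fun S => S ∩ J = T),
        hat p F S * chi p (S \ J) x) ^ 2
      = ∑ S ∈ (univ : Finset (Finset ι)).filter (fun S => S ∩ J = T),
        ∑ S' ∈ (univ : Finset (Finset ι)).filter (fun S => S ∩ J = T),
          (hat p F S * hat p F S') * (chi p (S \ J) x * chi p (S' \ J) x) := by
    intro x
    rw [sq, Finset.sum_mul_sum]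
    refine Finset.sum_congr rfl fun S _ => Finset.sum_congr rfl fun S' _ => ?_
    ring
  simp only [h]
  rw [Ex_sum]
  refine Finset.sum_congr rfl fun S hS => ?_
  rw [Ex_sum]
  rw [Finset.sum_eq_single_of_mem S hS]
  · rw [Ex_const_mul, Ex_chi_mul_chi hp0 hp1, if_pos rfl]
    ring
  · intro S' hS' hne
    rw [Ex_const_mul, Ex_chi_mul_chi hp0 hp1, if_neg, mul_zero]
    intro heq
    apply hne
    rw [Finset.mem_filter] at hS hS'
    rw [← Finset.sdiff_union_inter S' J, ← Finset.sdiff_union_inter S J, heq, hS.2, hS'.2]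

/-- Conditional level inequality. -/
theorem cond_level (hp0 : 0 < p) (hp1 : p < 1) (J : Finset ι) (F : (ι → Bool) → ℝ) (d : ℕ)
    (c : ℝ) (hc : 0 ≤ c) (h : ∀ x, EJ p J (fun y => F y ^ 2) x ≤ c ^ 2) :
    ∑ S ∈ (univ : Finset (Finset ι)).filter (fun S => (S ∩ J).card ≤ d), hat p F S ^ 2
      ≤ Real.sqrt (4 / (p * (1 - p))) ^ d * c * Ex p (fun ω => |F ω|) := by
  set B : ℝ := Real.sqrt (4 / (p * (1 - p))) ^ d with hB
  have hB0 : 0 ≤ B := by positivity
  -- pointwise level inequality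
  have h1 : ∀ x, lowMass p d (fun y => F (mix J x y)) ≤ B * c * EJ p J (fun y => |F y|) x := by
    intro x
    have hl := level_ineq_abs hp0 hp1 d (fun y => F (mix J x y))
    refine hl.trans ?_
    have e1 : Ex p (fun ω => |F (mix J x ω)|) = EJ p J (fun y => |F y|) x := rfl
    have e2 : Real.sqrt (Ex p (fun ω => F (mix J x ω) ^ 2)) ≤ c := by
      have := h x
      calc Real.sqrt (Ex p (fun ω => F (mix J x ω) ^ 2)) ≤ Real.sqrt (c ^ 2) :=
            Real.sqrt_le_sqrt this
        _ = c := Real.sqrt_sq hc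
    have e3 : 0 ≤ EJ p J (fun y => |F y|) x :=
      Ex_nonneg hp0.le hp1.le fun _ => abs_nonneg _
    rw [e1]
    calc B * EJ p J (fun y => |F y|) x * Real.sqrt (Ex p (fun ω => F (mix J x ω) ^ 2))
        ≤ B * EJ p J (fun y => |F y|) x * c :=
          mul_le_mul_of_nonneg_left e2 (mul_nonneg hB0 e3)
      _ = B * c * EJ p J (fun y => |F y|) x := by ring
  have h2 : Ex p (fun x => lowMass p d (fun y => F (mix J x y)))
      ≤ B * c * Ex p (fun ω => |F ω|) := by
    refine (Ex_mono hp0.le hp1.le h1).trans ?_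
    rw [Ex_const_mul]
    have : Ex p (fun x => EJ p J (fun y => |F y|) x) = Ex p (fun ω => |F ω|) :=
      Ex_EJ J (fun y => |F y|)
    rw [this]
  refine le_trans ?_ h2
  unfold lowMass
  rw [Ex_sum]
  -- group by the trace
  rw [← Finset.sum_fiberwise_of_maps_to (s := (univ : Finset (Finset ι)).filter
      (fun S => (S ∩ J).card ≤ d)) (t := (univ : Finset (Finset ι)).filter (fun S => S.card ≤ d))
      (g := fun S => S ∩ J)]
  · refine Finset.sum_le_sum fun T hT => ?_
    rw [Ex_hat_mix_sq hp0 hp1]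
    refine Finset.sum_le_sum_of_subset_of_nonneg ?_ fun S _ _ => sq_nonneg _
    intro S hS
    simp only [Finset.mem_filter, Finset.mem_univ, true_and] at hS ⊢
    exact hS.2
  · intro S hS
    simp only [Finset.mem_filter, Finset.mem_univ, true_and] at hS ⊢
    exact hS

end Crest.Agent.R056
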