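import Mathlib
import Crest.Prelude.Def_HypergraphCube

/-!
Row 56 (helper406): the symmetrization step. For weights `w` on finite sets of slots which are
invariant under renaming vertices, the average degree of the top vertex equals
`∑ w(S) r |S| / v(S)`.
-/

set_option autoImplicit false

namespace Crest.Agent.R056.SymAvg

open Finset Crest.CombinatoricsR.HypergraphCube

variable {n r : ℕ}

/-- `relabelSlot` as an equivalence. -/
def slotEquiv (π : Equiv.Perm (Fin n)) : HyperedgeSlot n r ≃ HyperedgeSlot n r where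
  toFun := relabelSlot π
  invFun := relabelSlot π.symm
  left_inv e := by
    apply Subtype.ext
    simp only [relabelSlot]
    ext a
    simp
  right_inv e := by
    apply Subtype.ext
    simp only [relabelSlot]
    ext a
    simp

/-- vertices covered by `S` -/
def vts (S : Finset (HyperedgeSlot n r)) : Finset (Fin n) := S.biUnion (fun e => e.1)

/-- degree of the vertex `a` in `S` -/
def dg (S : Finset (HyperedgeSlot n r)) (a : Fin n) : ℕ := (S.filter (fun e => a ∈ e.1)).card

/-- `j` is the largest vertex covered by `S` -/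
def IsTop (S : Finset (HyperedgeSlot n r)) (j : Fin n) : Prop :=
  j ∈ vts S ∧ ∀ a ∈ vts S, a ≤ j

/-- the image of `S` under the renaming `π` -/
def act (π : Equiv.Perm (Fin n)) (S : Finset (HyperedgeSlot n r)) :
    Finset (HyperedgeSlot n r) := S.map (slotEquiv π).toEmbedding

theorem mem_vts (S : Finset (HyperedgeSlot n r)) (a : Fin n) :
    a ∈ vts S ↔ ∃ e ∈ S, a ∈ e.1 := by
  simp [vts]

theorem mem_slotEquiv (π : Equiv.Perm (Fin n)) (e : HyperedgeSlot n r) (a : Fin n) :
    π a ∈ (slotEquiv π e).1 ↔ a ∈ e.1 := by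
  show π a ∈ (relabelSlot π e).1 ↔ a ∈ e.1
  simp [relabelSlot]

theorem mem_vts_act (π : Equiv.Perm (Fin n)) (S : Finset (HyperedgeSlot n r)) (a : Fin n) :
    π a ∈ vts (act π S) ↔ a ∈ vts S := by
  rw [mem_vts, mem_vts]
  constructor
  · rintro ⟨e, he, ha⟩
    rw [act, Finset.mem_map] at he
    obtain ⟨e', he', rfl⟩ := he
    exact ⟨e', he', (mem_slotEquiv π e' a).1 ha⟩
  · rintro ⟨e, he, ha⟩
    exact ⟨slotEquiv π e, by
      rw [act, Finset.mem_map]
      exact ⟨e, he, rfl⟩, (mem_slotEquiv π e a).2 ha⟩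

theorem dg_act (π : Equiv.Perm (Fin n)) (S : Finset (HyperedgeSlot n r)) (a : Fin n) :
    dg (act π S) (π a) = dg S a := by
  unfold dg act
  rw [Finset.filter_map, Finset.card_map]
  congr 1
  apply Finset.filter_congr
  intro e _
  exact mem_slotEquiv π e a

theorem isTop_act (π : Equiv.Perm (Fin n)) (S : Finset (HyperedgeSlot n r)) (a : Fin n) :
    IsTop (act π S) (π a) ↔ (a ∈ vts S ∧ ∀ b ∈ vts S, π b ≤ π a) := by
  unfold IsTop
  rw [mem_vts_act]
  constructor
  · rintro ⟨h1, h2⟩
    exact ⟨h1, fun b hb => h2 (π b) ((mem_vts_act π S b).2 hb)⟩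
  · rintro ⟨h1, h2⟩
    refine ⟨h1, fun b hb => ?_⟩
    have : b = π (π⁻¹ b) := by simp
    rw [this] at hb ⊢
    exact h2 _ ((mem_vts_act π S _).1 hb)

/-- number of permutations putting `a` on top of `U`. -/
def cnt (U : Finset (Fin n)) (a : Fin n) : ℕ :=
  ((univ : Finset (Equiv.Perm (Fin n))).filter
    (fun π => a ∈ U ∧ ∀ b ∈ U, π b ≤ π a)).card

theorem cnt_of_notMem (U : Finset (Fin n)) (a : Fin n) (ha : a ∉ U) : cnt U a = 0 := by
  classical
  unfold cnt
  rw [Finset.card_eq_zero, Finset.filter_eq_empty_iff]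
  intro π _ h
  exact ha h.1

theorem cnt_eq (U : Finset (Fin n)) (a a' : Fin n) (ha : a ∈ U) (ha' : a' ∈ U) :
    cnt U a = cnt U a' := by
  classical
  unfold cnt
  apply Finset.card_bij' (fun π _ => π * Equiv.swap a a') (fun π _ => π * Equiv.swap a a')
  · intro π hπ
    simp only [Finset.mem_filter, Finset.mem_univ, true_and] at hπ ⊢
    refine ⟨ha', fun b hb => ?_⟩
    have h2 := hπ.2
    have : Equiv.swap a a' b ∈ U := by
      rcases eq_or_ne b a with rfl | h1
      · simpa using ha'
      rcases eq_or_ne b a' with rfl | h3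
      · simpa using ha
      rw [Equiv.swap_apply_of_ne_of_ne h1 h3]
      exact hb
    simpa using h2 _ this
  · intro π hπ
    simp only [Finset.mem_filter, Finset.mem_univ, true_and] at hπ ⊢
    refine ⟨ha, fun b hb => ?_⟩
    have h2 := hπ.2
    have : Equiv.swap a a' b ∈ U := by
      rcases eq_or_ne b a with rfl | h1
      · simpa using ha'
      rcases eq_or_ne b a' with rfl | h3
      · simpa using ha
      rw [Equiv.swap_apply_of_ne_of_ne h1 h3]
      exact hb
    simpa using h2 _ this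
  · intro π _
    simp [mul_assoc]
  · intro π _
    simp [mul_assoc]

theorem sum_cnt (U : Finset (Fin n)) (hU : U.Nonempty) :
    ∑ a ∈ U, cnt U a = (univ : Finset (Equiv.Perm (Fin n))).card := by
  classical
  have key : ∀ π : Equiv.Perm (Fin n),
      (∑ a ∈ U, if (a ∈ U ∧ ∀ b ∈ U, π b ≤ π a) then 1 else 0) = 1 := by
    intro π
    obtain ⟨a0, ha0, hmax⟩ := Finset.exists_max_image U (fun a => π a) hU
    rw [Finset.sum_eq_single a0]
    · rw [if_pos ⟨ha0, hmax⟩]
    · intro b hb hne
      rw [if_neg]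
      rintro ⟨_, h⟩
      exact hne (π.injective (le_antisymm (hmax b hb) (h a0 ha0)))
    · intro h
      exact absurd ha0 h
  have : ∀ a ∈ U, cnt U a = ∑ π : Equiv.Perm (Fin n),
      if (a ∈ U ∧ ∀ b ∈ U, π b ≤ π a) then 1 else 0 := by
    intro a _
    unfold cnt
    rw [Finset.card_filter]
  rw [Finset.sum_congr rfl this, Finset.sum_comm]
  rw [Finset.sum_congr rfl (fun π _ => key π)]
  simp

theorem card_mul_cnt (U : Finset (Fin n)) (a : Fin n) (ha : a ∈ U) :
    U.card * cnt U a = (univ : Finset (Equiv.Perm (Fin n))).card := by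
  rw [← sum_cnt U ⟨a, ha⟩, Finset.sum_congr rfl (fun b hb => cnt_eq U b a hb ha)]
  simp

theorem sum_dg (S : Finset (HyperedgeSlot n r)) :
    ∑ a ∈ vts S, dg S a = r * S.card := by
  unfold dg
  simp_rw [Finset.card_filter]
  rw [Finset.sum_comm]
  have : ∀ e ∈ S, (∑ a ∈ vts S, if a ∈ e.1 then 1 else 0) = r := by
    intro e he
    rw [← Finset.card_filter]
    have h2 : (vts S).filter (fun a => a ∈ e.1) = e.1 := by
      ext a
      simp only [Finset.mem_filter, mem_vts]
      constructor
      · rintro ⟨_, h⟩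
        exact h
      · intro h
        exact ⟨⟨e, he, h⟩, h⟩
    rw [h2, e.2]
  rw [Finset.sum_congr rfl this]
  simp [mul_comm]

open Classical in
/-- The symmetrization identity. -/
theorem sum_top_eq (w : Finset (HyperedgeSlot n r) → ℝ)
    (hw : ∀ (π : Equiv.Perm (Fin n)) (S : Finset (HyperedgeSlot n r)), w (act π S) = w S) :
    ∑ S : Finset (HyperedgeSlot n r), w S * ∑ j ∈ univ.filter (fun j => IsTop S j), (dg S j : ℝ)
      = ∑ S : Finset (HyperedgeSlot n r), w S * ((r : ℝ) * S.card / (vts S).card) := by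
  set N : ℝ := ((univ : Finset (Equiv.Perm (Fin n))).card : ℝ) with hN
  have hNpos : 0 < N := by
    rw [hN]
    have : 0 < (univ : Finset (Equiv.Perm (Fin n))).card :=
      Finset.card_pos.2 ⟨1, Finset.mem_univ _⟩
    exact_mod_cast this
  have h1 : ∀ π : Equiv.Perm (Fin n),
      ∑ S : Finset (HyperedgeSlot n r), w S * ∑ j ∈ univ.filter (fun j => IsTop S j), (dg S j : ℝ)
      = ∑ S : Finset (HyperedgeSlot n r), w S *
          ∑ a : Fin n, if (a ∈ vts S ∧ ∀ b ∈ vts S, π b ≤ π a) then (dg S a : ℝ) else 0 := by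
    intro π
    symm
    apply Fintype.sum_equiv ((slotEquiv π).finsetCongr)
    intro S
    have e1 : (slotEquiv π).finsetCongr S = act π S := rfl
    rw [e1, hw π S]
    congr 1
    rw [Finset.sum_filter]
    apply Fintype.sum_equiv π
    intro a
    rw [dg_act]
    by_cases h : (a ∈ vts S ∧ ∀ b ∈ vts S, π b ≤ π a)
    · rw [if_pos h, if_pos ((isTop_act π S a).2 h)]
    · rw [if_neg h, if_neg (fun h' => h ((isTop_act π S a).1 h'))]
  have h2 : N * ∑ S : Finset (HyperedgeSlot n r), w S *
      ∑ j ∈ univ.filter (fun j => IsTop S j), (dg S j : ℝ)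
      = N * ∑ S : Finset (HyperedgeSlot n r), w S * ((r : ℝ) * S.card / (vts S).card) := by
    have h3 : N * ∑ S : Finset (HyperedgeSlot n r), w S *
        ∑ j ∈ univ.filter (fun j => IsTop S j), (dg S j : ℝ)
        = ∑ π : Equiv.Perm (Fin n), ∑ S : Finset (HyperedgeSlot n r), w S *
          ∑ a : Fin n, if (a ∈ vts S ∧ ∀ b ∈ vts S, π b ≤ π a) then (dg S a : ℝ) else 0 := by
      rw [← Finset.sum_congr rfl (fun π _ => h1 π)]
      rw [Finset.sum_const, nsmul_eq_mul, hN]
    rw [h3, Finset.sum_comm, Finset.mul_sum]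
    apply Finset.sum_congr rfl
    intro S _
    rw [← Finset.mul_sum, Finset.sum_comm]
    have h4 : ∀ a : Fin n, (∑ π : Equiv.Perm (Fin n),
        if (a ∈ vts S ∧ ∀ b ∈ vts S, π b ≤ π a) then (dg S a : ℝ) else 0)
        = (cnt (vts S) a : ℝ) * dg S a := by
      intro a
      rw [← Finset.sum_filter, Finset.sum_const, nsmul_eq_mul]
      congr 2
    rw [Finset.sum_congr rfl (fun a _ => h4 a)]
    have h5 : ∑ a : Fin n, (cnt (vts S) a : ℝ) * dg S a
        = ∑ a ∈ vts S, (cnt (vts S) a : ℝ) * dg S a := by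
      symm
      apply Finset.sum_subset (Finset.subset_univ _)
      intro a _ ha
      rw [cnt_of_notMem _ _ ha]
      simp
    rw [h5]
    have h6 : ∀ a ∈ vts S, (cnt (vts S) a : ℝ) * dg S a = N / (vts S).card * dg S a := by
      intro a ha
      congr 1
      have hc := card_mul_cnt (vts S) a ha
      have hpos : (0 : ℝ) < ((vts S).card : ℝ) := by
        exact_mod_cast Finset.card_pos.2 ⟨a, ha⟩
      rw [eq_div_iff hpos.ne', hN, ← hc]
      push_cast
      ring
    rw [Finset.sum_congr rfl h6, ← Finset.mul_sum]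
    have h7 : ∑ a ∈ vts S, (dg S a : ℝ) = (r : ℝ) * S.card := by
      exact_mod_cast sum_dg S
    rw [h7]
    ring
  exact mul_left_cancel₀ hNpos.ne' h2

theorem card_le_vts_pow (S : Finset (HyperedgeSlot n r)) : S.card ≤ (vts S).card ^ r := by
  have h1 : S.card ≤ ((vts S).powersetCard r).card := by
    apply Finset.card_le_card_of_injOn (fun e => e.1)
    · intro e he
      refine Finset.mem_coe.2 (Finset.mem_powersetCard.2 ⟨?_, e.2⟩)
      intro a ha
      exact (mem_vts S a).2 ⟨e, he, ha⟩
    · intro a _ b _ h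
      exact Subtype.ext h
  rw [Finset.card_powersetCard] at h1
  exact h1.trans (Nat.choose_le_pow _ _)

/-- Splitting according to `v(S) ≤ k` or `v(S) > k`. -/
theorem card_div_vts_le (hr : 1 ≤ r) (S : Finset (HyperedgeSlot n r)) (hS : S.Nonempty)
    (k : ℝ) (hk : 0 < k) :
    (S.card : ℝ) / (vts S).card ≤ k ^ (r - 1) + S.card / k := by
  have hv : 0 < (vts S).card := by
    obtain ⟨e, he⟩ := hS
    have : e.1.Nonempty := by
      rw [← Finset.card_pos, e.2]
      omega
    obtain ⟨a, ha⟩ := this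
    exact Finset.card_pos.2 ⟨a, (mem_vts S a).2 ⟨e, he, ha⟩⟩
  have hv' : (0 : ℝ) < (vts S).card := by exact_mod_cast hv
  have hS0 : (0 : ℝ) ≤ S.card := by positivity
  by_cases h : ((vts S).card : ℝ) ≤ k
  · have h1 : (S.card : ℝ) ≤ ((vts S).card : ℝ) ^ r := by exact_mod_cast card_le_vts_pow S
    have h2 : (S.card : ℝ) / (vts S).card ≤ ((vts S).card : ℝ) ^ (r - 1) := by
      rw [div_le_iff₀ hv']
      calc (S.card : ℝ) ≤ ((vts S).card : ℝ) ^ r := h1
        _ = ((vts S).card : ℝ) ^ (r - 1) * (vts S).card := by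
          rw [← pow_succ]
          congr 1
          omega
    have h3 : ((vts S).card : ℝ) ^ (r - 1) ≤ k ^ (r - 1) :=
      pow_le_pow_left₀ hv'.le h _
    have h4 : 0 ≤ (S.card : ℝ) / k := by positivity
    linarith
  · push Not at h
    have h2 : (S.card : ℝ) / (vts S).card ≤ S.card / k :=
      div_le_div_of_nonneg_left hS0 hk h.le
    have h3 : 0 ≤ k ^ (r - 1) := by positivity
    linarith

open Classical in
/-- Step (5) of the proof: for invariant nonnegative weights,
`∑ w(S) deg_S(top vertex) ≤ r (k^(r-1) ∑_{S≠∅} w(S) + (∑ |S| w(S))/k)`. -/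
theorem sum_top_le (hr : 1 ≤ r) (w : Finset (HyperedgeSlot n r) → ℝ) (hw0 : ∀ S, 0 ≤ w S)
    (hw : ∀ (π : Equiv.Perm (Fin n)) (S : Finset (HyperedgeSlot n r)), w (act π S) = w S)
    (k : ℝ) (hk : 0 < k) :
    ∑ S : Finset (HyperedgeSlot n r), w S * ∑ j ∈ univ.filter (fun j => IsTop S j), (dg S j : ℝ)
      ≤ r * (k ^ (r - 1) * (∑ S ∈ univ.filter (fun S => S ≠ ∅), w S)
          + (∑ S : Finset (HyperedgeSlot n r), (S.card : ℝ) * w S) / k) := by
  rw [sum_top_eq w hw]
  have h1 : ∑ S : Finset (HyperedgeSlot n r), w S * ((r : ℝ) * S.card / (vts S).card)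
      ≤ ∑ S : Finset (HyperedgeSlot n r),
          (r * (k ^ (r - 1) * (if S ≠ ∅ then w S else 0) + ((S.card : ℝ) * w S) / k)) := by
    apply Finset.sum_le_sum
    intro S _
    by_cases hS : S = ∅
    · subst hS
      simp
    · rw [if_pos hS]
      have h2 := card_div_vts_le hr S (Finset.nonempty_iff_ne_empty.2 hS) k hk
      have h3 : w S * ((r : ℝ) * S.card / (vts S).card)
          = (r * w S) * ((S.card : ℝ) / (vts S).card) := by ring
      rw [h3]
      calc (r * w S) * ((S.card : ℝ) / (vts S).card)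
          ≤ (r * w S) * (k ^ (r - 1) + S.card / k) := by
            apply mul_le_mul_of_nonneg_left h2
            have := hw0 S
            positivity
        _ = r * (k ^ (r - 1) * w S + ((S.card : ℝ) * w S) / k) := by ring
  refine h1.trans (le_of_eq ?_)
  rw [← Finset.mul_sum, Finset.sum_add_distrib, ← Finset.mul_sum, ← Finset.sum_div,
    Finset.sum_filter]

end Crest.Agent.R056.SymAvg
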