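import Crest.Agent.R056.Defs2
import Crest.Agent.R056.Fourier
import Crest.Agent.R056.Mix
import Crest.Agent.R056.Noise
import Crest.Agent.R056.SymAvg

/-! Row 56: use of the symmetry. OWNER: helper406. -/

set_option autoImplicit false
set_option linter.unusedSectionVars false

namespace Crest.Agent.R056

open Finset Crest.FinProb Crest.CombinatoricsR.HypergraphCube

section General

variable {ι : Type*} [Fintype ι] [DecidableEq ι] {p δ : ℝ}

theorem Ex_comp_equiv (τ : ι ≃ ι) (g : (ι → Bool) → ℝ) :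
    Ex p (fun x => g (x ∘ τ)) = Ex p g := by
  unfold Ex
  apply Fintype.sum_equiv (Equiv.arrowCongr τ.symm (Equiv.refl Bool))
  intro x
  have e1 : (Equiv.arrowCongr τ.symm (Equiv.refl Bool)) x = x ∘ τ := by
    funext i
    simp [Equiv.arrowCongr]
  rw [e1]
  congr 1
  unfold bernoulliWeight
  symm
  apply Fintype.prod_equiv τ
  intro i
  simp

theorem Dx_comp_equiv (τ : ι ≃ ι) (g : (ι → Bool) → ℝ) (hg : ∀ x, g (x ∘ τ) = g x) (e : ι)
    (x : ι → Bool) : Dx (τ e) g x = Dx e g (x ∘ τ) := by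
  unfold Dx
  have h : ∀ b, Function.update (x ∘ τ) e b = Function.update x (τ e) b ∘ τ := by
    intro b
    rw [Function.update_comp_equiv, Equiv.symm_apply_apply]
  rw [h, h, hg, hg]

theorem mix_comp_equiv (τ : ι ≃ ι) (J : Finset ι) (hJ : ∀ i, τ i ∈ J ↔ i ∈ J)
    (hJ' : ∀ i, i ∉ J → τ i = i) (x y : ι → Bool) : mix J x y ∘ τ = mix J x (y ∘ τ) := by
  funext i
  simp only [Function.comp, mix]
  by_cases h : i ∈ J
  · rw [if_pos h, if_pos ((hJ i).2 h)]
  · rw [if_neg h, if_neg (fun h' => h ((hJ i).1 h')), hJ' i h]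

theorem EJ_Dx_comp_equiv (τ : ι ≃ ι) (J : Finset ι) (hJ : ∀ i, τ i ∈ J ↔ i ∈ J)
    (hJ' : ∀ i, i ∉ J → τ i = i) (g : (ι → Bool) → ℝ) (hg : ∀ x, g (x ∘ τ) = g x) (e : ι)
    (x : ι → Bool) :
    EJ p J (fun y => Dx (τ e) g y ^ 2) x = EJ p J (fun y => Dx e g y ^ 2) x := by
  unfold EJ
  rw [← Ex_comp_equiv τ (fun y => Dx e g (mix J x y) ^ 2)]
  congr 1
  funext y
  show Dx (τ e) g (mix J x y) ^ 2 = Dx e g (mix J x (y ∘ τ)) ^ 2
  rw [Dx_comp_equiv τ g hg, mix_comp_equiv τ J hJ hJ']

theorem chi_image (p : ℝ) (τ : ι ≃ ι) (S : Finset ι) (x : ι → Bool) :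
    chi p (S.image τ) x = chi p S (x ∘ τ) := by
  unfold chi
  rw [Finset.prod_image (fun a _ b _ h => τ.injective h)]
  rfl

theorem hat_image (τ : ι ≃ ι) (g : (ι → Bool) → ℝ) (hg : ∀ x, g (x ∘ τ) = g x)
    (S : Finset ι) : hat p g (S.image τ) = hat p g S := by
  unfold hat
  rw [← Ex_comp_equiv τ (fun ω => g ω * chi p S ω)]
  congr 1
  funext x
  rw [chi_image, hg]

end General

variable {n r : ℕ} {p δ : ℝ}

open SymAvg

theorem ind_comp_slotEquiv (f : (HyperedgeSlot n r → Bool) → Bool) (hf : IsSymmetric f)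
    (σ : Equiv.Perm (Fin n)) (x : HyperedgeSlot n r → Bool) :
    ind f (x ∘ slotEquiv σ) = ind f x := by
  have h : x ∘ slotEquiv σ = relabel σ x := rfl
  unfold ind
  rw [h, hf σ x]

theorem Tn_relabel (f : (HyperedgeSlot n r → Bool) → Bool) (hf : IsSymmetric f)
    (σ : Equiv.Perm (Fin n)) (x : HyperedgeSlot n r → Bool) :
    Tn p δ (ind f) (relabel σ x) = Tn p δ (ind f) x :=
  Tn_comp_equiv (slotEquiv σ) (ind f) (ind_comp_slotEquiv f hf σ) x

theorem mem_touch (A : Finset (Fin n)) (e : HyperedgeSlot n r) :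
    e ∈ touch r A ↔ ∃ a ∈ A, a ∈ e.1 := by
  unfold touch
  rw [Finset.mem_filter, Finset.not_disjoint_iff]
  simp only [Finset.mem_univ, true_and]
  constructor
  · rintro ⟨a, h1, h2⟩
    exact ⟨a, h2, h1⟩
  · rintro ⟨a, h1, h2⟩
    exact ⟨a, h2, h1⟩

theorem swap_mem_iff (A : Finset (Fin n)) (a a' : Fin n) (ha : a ∈ A) (ha' : a' ∈ A)
    (b : Fin n) : Equiv.swap a a' b ∈ A ↔ b ∈ A := by
  rcases eq_or_ne b a with rfl | h1
  · simp [ha, ha']
  rcases eq_or_ne b a' with rfl | h2
  · simp [ha, ha']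
  rw [Equiv.swap_apply_of_ne_of_ne h1 h2]

/-- (2) of the paper proof: swap `a` with `a' ∈ A`; `touch r A` is invariant, slots outside are
fixed, the slots `e[a → a']` are distinct, and `grad_bound`. -/
theorem sym_grad (hp0 : 0 < p) (hp1 : p < 1) (hδ0 : 0 < δ) (hδ1 : δ ≤ 1)
    (f : (HyperedgeSlot n r → Bool) → Bool) (hf : IsSymmetric f)
    (A : Finset (Fin n)) (a : Fin n) (e : HyperedgeSlot n r) (he : e.1 ∩ A = {a})
    (x : HyperedgeSlot n r → Bool) :
    (A.card : ℝ) * EJ p (touch r A) (fun y => Dx e (Tn p δ (ind f)) y ^ 2) x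
      ≤ 1 / (δ * (p * (1 - p))) := by
  have hae : a ∈ e.1 ∩ A := by rw [he]; exact Finset.mem_singleton_self a
  have ha : a ∈ A := (Finset.mem_inter.1 hae).2
  have ha_e : a ∈ e.1 := (Finset.mem_inter.1 hae).1
  set g : (HyperedgeSlot n r → Bool) → ℝ := Tn p δ (ind f) with hg
  have hgsym : ∀ (σ : Equiv.Perm (Fin n)) (y : HyperedgeSlot n r → Bool),
      g (y ∘ slotEquiv σ) = g y := by
    intro σ y
    exact Tn_relabel f hf σ y
  -- the invariance of the conditional second moment
  have key : ∀ a' ∈ A, EJ p (touch r A) (fun y => Dx (slotEquiv (Equiv.swap a a') e) g y ^ 2) x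
      = EJ p (touch r A) (fun y => Dx e g y ^ 2) x := by
    intro a' ha'
    apply EJ_Dx_comp_equiv (slotEquiv (Equiv.swap a a'))
    · intro i
      rw [mem_touch, mem_touch]
      constructor
      · rintro ⟨b, hb, hbi⟩
        refine ⟨Equiv.swap a a' b, (swap_mem_iff A a a' ha ha' b).2 hb, ?_⟩
        rw [← mem_slotEquiv (Equiv.swap a a')]
        simpa using hbi
      · rintro ⟨b, hb, hbi⟩
        exact ⟨Equiv.swap a a' b, (swap_mem_iff A a a' ha ha' b).2 hb,
          (mem_slotEquiv _ _ _).2 hbi⟩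
    · intro i hi
      rw [mem_touch] at hi
      push Not at hi
      apply Subtype.ext
      ext b
      have hb := mem_slotEquiv (Equiv.swap a a') i (Equiv.swap a a' b)
      rw [Equiv.swap_apply_self] at hb
      rw [hb]
      rcases eq_or_ne b a with rfl | h1
      · rw [Equiv.swap_apply_left]
        exact ⟨fun h => absurd h (hi a' ha'), fun h => absurd h (hi b ha)⟩
      rcases eq_or_ne b a' with rfl | h2
      · rw [Equiv.swap_apply_right]
        exact ⟨fun h => absurd h (hi a ha), fun h => absurd h (hi b ha')⟩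
      rw [Equiv.swap_apply_of_ne_of_ne h1 h2]
    · exact hgsym _
  -- distinctness
  have hinj : Set.InjOn (fun a' => slotEquiv (Equiv.swap a a') e) (A : Set (Fin n)) := by
    have hchar : ∀ a' ∈ A, ∀ b ∈ A, b ∈ (slotEquiv (Equiv.swap a a') e).1 → b = a' := by
      intro a' ha' b hb hbe
      have h1 := mem_slotEquiv (Equiv.swap a a') e (Equiv.swap a a' b)
      rw [Equiv.swap_apply_self] at h1
      have h2 : Equiv.swap a a' b ∈ e.1 ∩ A :=
        Finset.mem_inter.2 ⟨h1.1 hbe, (swap_mem_iff A a a' ha ha' b).2 hb⟩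
      rw [he, Finset.mem_singleton] at h2
      have h3 := congrArg (Equiv.swap a a') h2
      rw [Equiv.swap_apply_self, Equiv.swap_apply_left] at h3
      exact h3
    intro a1 h1 a2 h2 h12
    simp only at h12
    have h3 : a1 ∈ (slotEquiv (Equiv.swap a a1) e).1 := by
      have := (mem_slotEquiv (Equiv.swap a a1) e a).2 ha_e
      rwa [Equiv.swap_apply_left] at this
    rw [h12] at h3
    exact hchar a2 (Finset.mem_coe.1 h2) a1 (Finset.mem_coe.1 h1) h3
  have hbound : ∀ y, ∑ a' ∈ A, Dx (slotEquiv (Equiv.swap a a') e) g y ^ 2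
      ≤ 1 / (δ * (p * (1 - p))) := by
    intro y
    have h1 : ∑ a' ∈ A, Dx (slotEquiv (Equiv.swap a a') e) g y ^ 2
        = ∑ e' ∈ A.image (fun a' => slotEquiv (Equiv.swap a a') e), Dx e' g y ^ 2 := by
      rw [Finset.sum_image hinj]
    rw [h1]
    refine (Finset.sum_le_univ_sum_of_nonneg (fun e' => sq_nonneg _)).trans ?_
    apply grad_bound hp0 hp1 hδ0 hδ1
    intro ω
    unfold ind
    split_ifs <;> simp
  have hsum : (A.card : ℝ) * EJ p (touch r A) (fun y => Dx e g y ^ 2) x
      = EJ p (touch r A)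
          (fun y => ∑ a' ∈ A, Dx (slotEquiv (Equiv.swap a a') e) g y ^ 2) x := by
    have h1 : EJ p (touch r A)
          (fun y => ∑ a' ∈ A, Dx (slotEquiv (Equiv.swap a a') e) g y ^ 2) x
        = ∑ a' ∈ A, EJ p (touch r A)
            (fun y => Dx (slotEquiv (Equiv.swap a a') e) g y ^ 2) x := by
      unfold EJ
      exact Ex_sum A (fun a' y =>
        Dx (slotEquiv (Equiv.swap a a') e) g (mix (touch r A) x y) ^ 2)
    rw [h1, Finset.sum_congr rfl key, Finset.sum_const, nsmul_eq_mul]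
  rw [hsum]
  have h2 := EJ_mono hp0.le hp1.le (touch r A) hbound x
  refine h2.trans (le_of_eq ?_)
  unfold EJ
  have h3 : (fun _ : HyperedgeSlot n r → Bool => 1 / (δ * (p * (1 - p))))
      = fun ω => (1 / (δ * (p * (1 - p)))) * (fun _ : HyperedgeSlot n r → Bool => (1 : ℝ)) ω := by
    funext ω
    simp
  rw [h3, Ex_const_mul, Ex_one, mul_one]

/-- Fourier masses of a symmetric function are invariant. -/
theorem mass_image_relabelSlot (f : (HyperedgeSlot n r → Bool) → Bool) (hf : IsSymmetric f)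
    (σ : Equiv.Perm (Fin n)) (S : Finset (HyperedgeSlot n r)) :
    mass p f (S.image (relabelSlot σ)) = mass p f S := by
  unfold mass
  have h : S.image (relabelSlot σ) = S.image (slotEquiv σ) := rfl
  rw [h, hat_image (slotEquiv σ) (ind f) (ind_comp_slotEquiv f hf σ)]

theorem exists_perm_pair (a a' b b' : Fin n) (haa : a ≠ a') (hbb : b ≠ b') :
    ∃ σ : Equiv.Perm (Fin n), σ a = b ∧ σ a' = b' := by
  refine ⟨Equiv.swap (Equiv.swap a b a') b' * Equiv.swap a b, ?_, ?_⟩
  · rw [Equiv.Perm.mul_apply, Equiv.swap_apply_left]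
    apply Equiv.swap_apply_of_ne_of_ne
    · intro h
      have h2 := congrArg (Equiv.swap a b) h
      rw [Equiv.swap_apply_right, Equiv.swap_apply_self] at h2
      exact haa h2
    · exact hbb
  · rw [Equiv.Perm.mul_apply, Equiv.swap_apply_left]

theorem mem_verts_act (σ : Equiv.Perm (Fin n)) (S : Finset (HyperedgeSlot n r)) (a : Fin n) :
    σ a ∈ verts (S.image (relabelSlot σ)) ↔ a ∈ verts S := by
  have h : S.image (relabelSlot σ) = act σ S := by
    unfold act
    rw [Finset.map_eq_image]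
    rfl
  rw [h]
  exact mem_vts_act σ S a

/-- the transported sum over sets covering a pair of vertices. -/
theorem pair_sum_eq (f : (HyperedgeSlot n r → Bool) → Bool) (hf : IsSymmetric f)
    (w : ℕ → ℝ) (σ : Equiv.Perm (Fin n)) (a a' : Fin n) :
    ∑ S ∈ (univ : Finset (Finset (HyperedgeSlot n r))).filter
        (fun S => a ∈ verts S ∧ a' ∈ verts S), w S.card * mass p f S
      = ∑ S ∈ (univ : Finset (Finset (HyperedgeSlot n r))).filter
        (fun S => σ a ∈ verts S ∧ σ a' ∈ verts S), w S.card * mass p f S := by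
  rw [Finset.sum_filter, Finset.sum_filter]
  apply Fintype.sum_equiv ((slotEquiv σ).finsetCongr)
  intro S
  have e1 : (slotEquiv σ).finsetCongr S = S.image (relabelSlot σ) := by
    rw [Equiv.finsetCongr_apply, Finset.map_eq_image]
    rfl
  have hcard : (S.image (relabelSlot σ)).card = S.card :=
    Finset.card_image_of_injective S (slotEquiv σ).injective
  rw [e1, hcard, mass_image_relabelSlot f hf]
  simp only [mem_verts_act]

/-- Pair symmetry: the weighted mass of the sets covering two given vertices. -/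
theorem pair_mass (f : (HyperedgeSlot n r → Bool) → Bool) (hf : IsSymmetric f)
    (w : ℕ → ℝ) (a a' : Fin n) (haa : a ≠ a') :
    (n : ℝ) * (n - 1) * (∑ S ∈ (univ : Finset (Finset (HyperedgeSlot n r))).filter
        (fun S => a ∈ verts S ∧ a' ∈ verts S), w S.card * mass p f S)
      = ∑ S : Finset (HyperedgeSlot n r),
        ((verts S).card : ℝ) * ((verts S).card - 1) * (w S.card * mass p f S) := by
  set P : ℝ := ∑ S ∈ (univ : Finset (Finset (HyperedgeSlot n r))).filter
        (fun S => a ∈ verts S ∧ a' ∈ verts S), w S.card * mass p f S with hP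
  have hall : ∀ b b' : Fin n, b ≠ b' →
      ∑ S ∈ (univ : Finset (Finset (HyperedgeSlot n r))).filter
        (fun S => b ∈ verts S ∧ b' ∈ verts S), w S.card * mass p f S = P := by
    intro b b' hbb
    obtain ⟨σ, h1, h2⟩ := exists_perm_pair a a' b b' haa hbb
    rw [hP, pair_sum_eq f hf w σ a a', h1, h2]
  have hoff : ∀ U : Finset (Fin n),
      (U.offDiag.card : ℝ) = (U.card : ℝ) * ((U.card : ℝ) - 1) := by
    intro U
    rw [Finset.offDiag_card]
    have : U.card ≤ U.card * U.card := Nat.le_mul_self _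
    rw [Nat.cast_sub this]
    push_cast
    ring
  have h1 : ∑ q ∈ (univ : Finset (Fin n)).offDiag,
      ∑ S ∈ (univ : Finset (Finset (HyperedgeSlot n r))).filter
        (fun S => q.1 ∈ verts S ∧ q.2 ∈ verts S), w S.card * mass p f S
      = (n : ℝ) * (n - 1) * P := by
    have h2 : ∀ q ∈ (univ : Finset (Fin n)).offDiag,
        ∑ S ∈ (univ : Finset (Finset (HyperedgeSlot n r))).filter
        (fun S => q.1 ∈ verts S ∧ q.2 ∈ verts S), w S.card * mass p f S = P := by
      intro q hq
      exact hall q.1 q.2 (Finset.mem_offDiag.1 hq).2.2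
    rw [Finset.sum_congr rfl h2, Finset.sum_const, nsmul_eq_mul, hoff]
    simp
  rw [← h1]
  simp_rw [Finset.sum_filter]
  rw [Finset.sum_comm]
  apply Finset.sum_congr rfl
  intro S _
  rw [← Finset.sum_filter]
  have h3 : ((univ : Finset (Fin n)).offDiag.filter
      (fun q => q.1 ∈ verts S ∧ q.2 ∈ verts S)) = (verts S).offDiag := by
    ext q
    simp only [Finset.mem_filter, Finset.mem_offDiag, Finset.mem_univ, true_and]
    tauto
  rw [h3, Finset.sum_const, nsmul_eq_mul, hoff]

end Crest.Agent.R056
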