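import Crest.Agent.R056.Mix
import Crest.Agent.R056.Noise
import Crest.Agent.R056.Sym
import Crest.Agent.R056.Comb

/-! Row 56: assembly. OWNER: helper56. -/

set_option autoImplicit false
set_option linter.unusedSectionVars false

namespace Crest.Agent.R056

open Finset Crest.FinProb Crest.CombinatoricsR.HypergraphCube

variable {n r : ℕ} {p δ : ℝ}

/-- Elementary: `k (1-δ)^(2k) ≤ 1/(4δ)`. -/
theorem card_mul_pow_le (hδ0 : 0 < δ) (hδ1 : δ ≤ 1) (k : ℕ) :
    (k : ℝ) * (1 - δ) ^ (2 * k) ≤ 1 / (4 * δ) := by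
  have h1 : (1 - δ) ^ (2 * k) ≤ Real.exp (-(2 * k * δ)) := by
    have h0 : (0 : ℝ) ≤ 1 - δ := by linarith
    have h2 : 1 - δ ≤ Real.exp (-δ) := by
      have := Real.add_one_le_exp (-δ); linarith
    calc (1 - δ) ^ (2 * k) ≤ Real.exp (-δ) ^ (2 * k) := pow_le_pow_left₀ h0 h2 _
      _ = Real.exp (-(2 * k * δ)) := by
        rw [← Real.exp_nat_mul]; congr 1; push_cast; ring
  have h3 : 2 * (2 * k * δ) ≤ Real.exp (2 * k * δ) := by
    have hx : (0 : ℝ) ≤ 2 * k * δ := by positivity
    have := Real.quadratic_le_exp_of_nonneg hx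
    nlinarith [sq_nonneg (2 * k * δ - 1)]
  have hE : 0 < Real.exp (2 * k * δ) := Real.exp_pos _
  have h4 : (k : ℝ) * Real.exp (-(2 * k * δ)) ≤ 1 / (4 * δ) := by
    rw [Real.exp_neg, le_div_iff₀ (by positivity)]
    have : (k : ℝ) * (Real.exp (2 * k * δ))⁻¹ * (4 * δ)
        = (2 * (2 * k * δ)) / Real.exp (2 * k * δ) := by
      field_simp
      ring
    rw [this, div_le_one hE]
    exact h3
  exact (mul_le_mul_of_nonneg_left h1 (Nat.cast_nonneg k)).trans h4

theorem touch_union (A B : Finset (Fin n)) : touch r A ∪ touch r B = touch r (A ∪ B) := by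
  ext e
  simp only [touch, mem_union, mem_filter, mem_univ, true_and, disjoint_union_right]
  tauto

theorem disjoint_touch_iff (S : Finset (HyperedgeSlot n r)) (A : Finset (Fin n)) :
    Disjoint S (touch r A) ↔ Disjoint (verts S) A := by
  unfold verts touch
  rw [Finset.disjoint_biUnion_left, Finset.disjoint_left]
  refine forall₂_congr fun e he => ?_
  simp

theorem inter_touch_singleton (S : Finset (HyperedgeSlot n r)) (a : Fin n) :
    (S ∩ touch r {a}).card = degS S a := by
  unfold degS touch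
  congr 1
  ext e
  simp

theorem degS_pos_iff (S : Finset (HyperedgeSlot n r)) (a : Fin n) :
    1 ≤ degS S a ↔ a ∈ verts S := by
  unfold degS verts
  rw [Nat.one_le_iff_ne_zero, ← Nat.pos_iff_ne_zero, Finset.card_pos, Finset.mem_biUnion]
  constructor
  · rintro ⟨e, he⟩
    rw [mem_filter] at he
    exact ⟨e, he.1, he.2⟩
  · rintro ⟨e, he, ha⟩
    exact ⟨e, by rw [mem_filter]; exact ⟨he, ha⟩⟩

theorem sum_le_sum_cover {α β : Type*} [Fintype α] (s : Finset α) (t : Finset β)
    (R : β → α → Prop) [∀ y, DecidablePred (R y)] (w : α → ℝ) (hw : ∀ x, 0 ≤ w x)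
    (h : ∀ x ∈ s, ∃ y ∈ t, R y x) :
    ∑ x ∈ s, w x ≤ ∑ y ∈ t, ∑ x ∈ (univ : Finset α).filter (R y), w x := by
  classical
  have h1 : ∀ x ∈ s, w x ≤ ∑ y ∈ t, if R y x then w x else 0 := by
    intro x hx
    obtain ⟨y, hy, hR⟩ := h x hx
    have := Finset.single_le_sum (f := fun y => if R y x then w x else 0)
      (fun z _ => by split_ifs; exacts [hw x, le_rfl]) hy
    simpa [hR] using this
  refine (Finset.sum_le_sum h1).trans ?_
  rw [Finset.sum_comm]
  refine Finset.sum_le_sum fun y _ => ?_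
  rw [Finset.sum_filter]
  refine Finset.sum_le_sum_of_subset_of_nonneg (Finset.subset_univ _) fun x _ _ => ?_
  split_ifs
  exacts [hw x, le_rfl]

/-- The noisy weight of `S`. -/
theorem hat_Tn_sq (hp0 : 0 < p) (hp1 : p < 1) (f : (HyperedgeSlot n r → Bool) → Bool)
    (S : Finset (HyperedgeSlot n r)) :
    hat p (Tn p δ (ind f)) S ^ 2 = (1 - δ) ^ (2 * S.card) * mass p f S := by
  rw [hat_Tn hp0 hp1, mul_pow, mass, ← pow_mul, mul_comm S.card 2]

/-- One slot `e` with `e ∩ A = {a}`. -/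
theorem key_slot (hp0 : 0 < p) (hp1 : p < 1) (hδ0 : 0 < δ) (hδ1 : δ ≤ 1)
    (f : (HyperedgeSlot n r → Bool) → Bool) (hf : IsSymmetric f) (s : ℕ)
    (A : Finset (Fin n)) (a : Fin n) (ha : a ∈ A) (e : HyperedgeSlot n r)
    (he : e.1 ∩ A = {a}) :
    ∑ S ∈ (univ : Finset (Finset (HyperedgeSlot n r))).filter
        (fun S => e ∈ S ∧ degS S a ≤ s ∧ Disjoint (verts S) (A.erase a)),
        hat p (Tn p δ (ind f)) S ^ 2
      ≤ p * (1 - p) * (Real.sqrt (4 / (p * (1 - p))) ^ s
        * (1 / Real.sqrt (p * (1 - p) * A.card * δ)) * infl p f e) := by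
  have hq : 0 < p * (1 - p) := mul_pos hp0 (by linarith)
  have hm : 0 < (A.card : ℝ) := by exact_mod_cast Finset.card_pos.mpr ⟨a, ha⟩
  set g := Tn p δ (ind f) with hg
  set A' := A.erase a with hA'
  set v : (HyperedgeSlot n r → Bool) → ℝ := Dx e (EJ p (touch r A') g) with hv
  have heA' : e ∉ touch r A' := by
    simp only [touch, mem_filter, mem_univ, true_and, not_not]
    rw [Finset.disjoint_left]
    intro i hi hiA
    rw [hA', mem_erase] at hiA
    have : i ∈ e.1 ∩ A := mem_inter.mpr ⟨hi, hiA.2⟩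
    rw [he, mem_singleton] at this
    exact hiA.1 this
  have hv2 : v = fun x => EJ p (touch r A') (Dx e g) x := by
    funext x; exact Dx_EJ _ _ heA' _ _
  set c : ℝ := 1 / Real.sqrt (p * (1 - p) * A.card * δ) with hc
  have hc0 : 0 ≤ c := by positivity
  have hc2 : c ^ 2 = 1 / (p * (1 - p) * A.card * δ) := by
    rw [hc, div_pow, one_pow, Real.sq_sqrt (by positivity)]
  have htouch : touch r {a} ∪ touch r A' = touch r A := by
    rw [touch_union]
    congr 1
    rw [hA', ← Finset.insert_eq, Finset.insert_erase ha]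
  have hbound : ∀ x, EJ p (touch r {a}) (fun y => v y ^ 2) x ≤ c ^ 2 := by
    intro x
    have h1 : ∀ y, v y ^ 2 ≤ EJ p (touch r A') (fun z => Dx e g z ^ 2) y := by
      intro y
      rw [hv2]
      exact EJ_sq_le hp0.le hp1.le _ _ _
    have h2 := EJ_mono hp0.le hp1.le (touch r {a}) h1 x
    have h3 : EJ p (touch r {a}) (fun y => EJ p (touch r A') (fun z => Dx e g z ^ 2) y) x
        = EJ p (touch r A) (fun z => Dx e g z ^ 2) x := by
      rw [← htouch]
      exact EJ_EJ _ _ _ _
    rw [h3] at h2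
    refine h2.trans ?_
    have h4 := sym_grad hp0 hp1 hδ0 hδ1 f hf A a e he x
    rw [hc2, le_div_iff₀ (by positivity)]
    rw [le_div_iff₀ (by positivity)] at h4
    calc EJ p (touch r A) (fun z => Dx e g z ^ 2) x * (p * (1 - p) * A.card * δ)
        = (A.card : ℝ) * EJ p (touch r A) (fun z => Dx e g z ^ 2) x * (δ * (p * (1 - p))) := by ring
      _ ≤ 1 := h4
  have hcl := cond_level hp0 hp1 (touch r {a}) v s c hc0 hbound
  have hL1 : Ex p (fun x => |v x|) ≤ infl p f e := by
    rw [hv2]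
    exact (Ex_abs_EJ_le hp0.le hp1.le _ _).trans (Ex_abs_Dx_Tn_le hp0 hp1 hδ0.le hδ1 f e)
  -- rewrite the left side
  have hterm : ∀ S ∈ (univ : Finset (Finset (HyperedgeSlot n r))).filter
        (fun S => e ∈ S ∧ degS S a ≤ s ∧ Disjoint (verts S) A'),
        hat p g S ^ 2 = p * (1 - p) * hat p v (S.erase e) ^ 2 := by
    intro S hS
    rw [mem_filter] at hS
    obtain ⟨-, heS, -, hdis⟩ := hS
    have h1 : hat p (EJ p (touch r A') g) S = hat p g S := by
      rw [hat_EJ hp0 hp1, if_pos ((disjoint_touch_iff S A').mpr hdis)]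
    rw [← h1, hat_eq_sqrt_mul_hat_Dx hp0 hp1 _ e S heS, mul_pow, Real.sq_sqrt hq.le]
  rw [Finset.sum_congr rfl hterm, ← Finset.mul_sum]
  refine mul_le_mul_of_nonneg_left ?_ hq.le
  have hinj : ∑ S ∈ (univ : Finset (Finset (HyperedgeSlot n r))).filter
        (fun S => e ∈ S ∧ degS S a ≤ s ∧ Disjoint (verts S) A'), hat p v (S.erase e) ^ 2
      ≤ ∑ S ∈ (univ : Finset (Finset (HyperedgeSlot n r))).filter
        (fun S => (S ∩ touch r {a}).card ≤ s), hat p v S ^ 2 := by
    rw [← Finset.sum_image (f := fun S : Finset (HyperedgeSlot n r) => hat p v S ^ 2)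
      (g := fun S : Finset (HyperedgeSlot n r) => S.erase e)]
    · refine Finset.sum_le_sum_of_subset_of_nonneg ?_ fun S _ _ => sq_nonneg _
      intro S hS
      rw [mem_image] at hS
      obtain ⟨S', hS', rfl⟩ := hS
      rw [mem_filter] at hS' ⊢
      refine ⟨mem_univ _, ?_⟩
      refine le_trans (Finset.card_le_card ?_) ((inter_touch_singleton S' a).le.trans hS'.2.2.1)
      exact Finset.inter_subset_inter_right (Finset.erase_subset _ _)
    · intro S1 hS1 S2 hS2 heq
      simp only [Finset.coe_filter, Set.mem_ofPred_eq, mem_univ, true_and] at hS1 hS2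
      have : insert e (S1.erase e) = insert e (S2.erase e) := by
        simp only at heq; rw [heq]
      rwa [Finset.insert_erase hS1.1, Finset.insert_erase hS2.1] at this
  refine hinj.trans (hcl.trans ?_)
  exact mul_le_mul_of_nonneg_left hL1 (by positivity)

/-- One vertex `a`, the sets avoiding `A \ {a}`. -/
theorem key_vertex (hp0 : 0 < p) (hp1 : p < 1) (hδ0 : 0 < δ) (hδ1 : δ ≤ 1)
    (f : (HyperedgeSlot n r → Bool) → Bool) (hf : IsSymmetric f) (s : ℕ)
    (A : Finset (Fin n)) (a : Fin n) (ha : a ∈ A) :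
    ∑ S ∈ (univ : Finset (Finset (HyperedgeSlot n r))).filter
        (fun S => 1 ≤ degS S a ∧ degS S a ≤ s ∧ Disjoint (verts S) (A.erase a)),
        hat p (Tn p δ (ind f)) S ^ 2
      ≤ p * (1 - p) * (Real.sqrt (4 / (p * (1 - p))) ^ s
        * (1 / Real.sqrt (p * (1 - p) * A.card * δ))
          * ∑ e ∈ (univ : Finset (HyperedgeSlot n r)).filter (fun e => a ∈ e.1), infl p f e) := by
  have hq : 0 < p * (1 - p) := mul_pos hp0 (by linarith)
  rw [Finset.mul_sum, Finset.mul_sum]
  -- cover by the slots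
  have hcover : ∑ S ∈ (univ : Finset (Finset (HyperedgeSlot n r))).filter
        (fun S => 1 ≤ degS S a ∧ degS S a ≤ s ∧ Disjoint (verts S) (A.erase a)),
        hat p (Tn p δ (ind f)) S ^ 2
      ≤ ∑ e ∈ ((univ : Finset (HyperedgeSlot n r)).filter (fun e => a ∈ e.1)).filter
          (fun e => Disjoint e.1 (A.erase a)),
        ∑ S ∈ (univ : Finset (Finset (HyperedgeSlot n r))).filter
          (fun S => e ∈ S ∧ degS S a ≤ s ∧ Disjoint (verts S) (A.erase a)),
          hat p (Tn p δ (ind f)) S ^ 2 := by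
    refine sum_le_sum_cover _ _ (fun e S => e ∈ S ∧ degS S a ≤ s ∧
      Disjoint (verts S) (A.erase a)) _ (fun _ => sq_nonneg _) ?_
    intro S hS
    rw [mem_filter] at hS
    obtain ⟨-, h1, h2, h3⟩ := hS
    have h1' := (degS_pos_iff S a).mp h1
    unfold verts at h1'
    rw [mem_biUnion] at h1'
    obtain ⟨e, heS, hae⟩ := h1'
    refine ⟨e, ?_, heS, h2, h3⟩
    rw [mem_filter, mem_filter]
    refine ⟨⟨mem_univ _, hae⟩, ?_⟩
    unfold verts at h3
    rw [Finset.disjoint_biUnion_left] at h3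
    exact h3 e heS
  refine hcover.trans ?_
  have h1 : ∀ e ∈ ((univ : Finset (HyperedgeSlot n r)).filter (fun e => a ∈ e.1)).filter
          (fun e => Disjoint e.1 (A.erase a)),
        ∑ S ∈ (univ : Finset (Finset (HyperedgeSlot n r))).filter
          (fun S => e ∈ S ∧ degS S a ≤ s ∧ Disjoint (verts S) (A.erase a)),
          hat p (Tn p δ (ind f)) S ^ 2
        ≤ p * (1 - p) * (Real.sqrt (4 / (p * (1 - p))) ^ s
        * (1 / Real.sqrt (p * (1 - p) * A.card * δ)) * infl p f e) := by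
    intro e he
    rw [mem_filter, mem_filter] at he
    refine key_slot hp0 hp1 hδ0 hδ1 f hf s A a ha e ?_
    ext i
    rw [mem_inter, mem_singleton]
    constructor
    · rintro ⟨hi, hiA⟩
      by_contra hne
      exact (Finset.disjoint_left.mp he.2) hi (mem_erase.mpr ⟨hne, hiA⟩)
    · rintro rfl
      exact ⟨he.1.2, ha⟩
  refine (Finset.sum_le_sum h1).trans ?_
  refine Finset.sum_le_sum_of_subset_of_nonneg (Finset.filter_subset _ _) fun e _ _ => ?_
  have := infl_nonneg hp0.le hp1.le f e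
  positivity

theorem sum_sum_infl (f : (HyperedgeSlot n r → Bool) → Bool) :
    ∑ a : Fin n, ∑ e ∈ (univ : Finset (HyperedgeSlot n r)).filter (fun e => a ∈ e.1),
      infl p f e = r * totInf p f := by
  simp_rw [Finset.sum_filter]
  rw [Finset.sum_comm]
  unfold totInf
  rw [Finset.mul_sum]
  refine Finset.sum_congr rfl fun e _ => ?_
  rw [← Finset.sum_filter, Finset.sum_const, nsmul_eq_mul]
  congr 1
  have : (univ.filter (fun a => a ∈ e.1)) = e.1 := by ext; simp
  rw [this, e.2]

theorem arith_aux (m n : ℕ) (hm : 1 ≤ m) (hmn : m ≤ n) (Q : ℝ) (hQ0 : 0 ≤ Q) :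
    (n : ℝ) * (((m - 1 : ℕ) : ℝ) * (Q / ((n : ℝ) * (n - 1)))) ≤ m / n * Q := by
  have hn1 : 1 ≤ n := hm.trans hmn
  have hm1' : (1 : ℝ) ≤ m := by exact_mod_cast hm
  have hmn' : (m : ℝ) ≤ n := by exact_mod_cast hmn
  rcases Nat.eq_or_lt_of_le hn1 with h | h
  · have : m = 1 := by omega
    subst this
    simp only [Nat.sub_self, Nat.cast_zero, zero_mul, mul_zero]
    positivity
  · rw [Nat.cast_sub hm, Nat.cast_one]
    have hn2 : (1 : ℝ) < n := by exact_mod_cast h
    have hn3 : (0 : ℝ) < n - 1 := by linarith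
    have : (n : ℝ) * (((m : ℝ) - 1) * (Q / ((n : ℝ) * (n - 1)))) = ((m : ℝ) - 1) / (n - 1) * Q := by
      field_simp
    rw [this]
    refine mul_le_mul_of_nonneg_right ?_ hQ0
    rw [div_le_div_iff₀ hn3 (by linarith)]
    nlinarith

/-- (5): the bound on `Λ`. -/
theorem Lam_le (hp0 : 0 < p) (hp1 : p < 1) (hδ0 : 0 < δ) (hδ1 : δ ≤ 1)
    (f : (HyperedgeSlot n r → Bool) → Bool) (hf : IsSymmetric f) (m s : ℕ)
    (hm : 1 ≤ m) (hmn : m ≤ n) :
    Lam p δ f s ≤ r * (p * (1 - p) * totInf p f) * Real.sqrt (4 / (p * (1 - p))) ^ s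
        / Real.sqrt (p * (1 - p) * m * δ)
      + m / n * r ^ 2 * (p * (1 - p) * totInf p f) / (4 * δ) := by
  have hq : 0 < p * (1 - p) := mul_pos hp0 (by linarith)
  set w : Finset (HyperedgeSlot n r) → ℝ := fun S => (1 - δ) ^ (2 * S.card) * mass p f S with hw
  have hw0 : ∀ S, 0 ≤ w S := fun S => by
    have := mass_nonneg (p := p) f S
    have h1 : 0 ≤ (1 - δ) := by linarith
    positivity
  set Q : ℝ := ∑ S : Finset (HyperedgeSlot n r),
        ((verts S).card : ℝ) * ((verts S).card - 1) * w S with hQ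
  have hpair : ∀ a a' : Fin n, a ≠ a' →
      (n : ℝ) * (n - 1) * (∑ S ∈ (univ : Finset (Finset (HyperedgeSlot n r))).filter
        (fun S => a ∈ verts S ∧ a' ∈ verts S), w S) = Q :=
    fun a a' haa => pair_mass f hf (fun k => (1 - δ) ^ (2 * k)) a a' haa
  -- one vertex
  have hvert : ∀ a : Fin n, ∑ S ∈ (univ : Finset (Finset (HyperedgeSlot n r))).filter
      (fun S => 1 ≤ degS S a ∧ degS S a ≤ s), w S
      ≤ p * (1 - p) * (Real.sqrt (4 / (p * (1 - p))) ^ s
        * (1 / Real.sqrt (p * (1 - p) * m * δ))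
          * ∑ e ∈ (univ : Finset (HyperedgeSlot n r)).filter (fun e => a ∈ e.1), infl p f e)
        + (m - 1 : ℕ) * (Q / ((n : ℝ) * (n - 1))) := by
    intro a
    obtain ⟨A, hAa, -, hAm⟩ := Finset.exists_subsuperset_card_eq
      (s := ({a} : Finset (Fin n))) (t := univ) (n := m) (Finset.subset_univ _)
      (by simpa using hm) (by simpa using hmn)
    have ha : a ∈ A := hAa (mem_singleton_self a)
    have hsplit := Finset.sum_filter_add_sum_filter_not
      ((univ : Finset (Finset (HyperedgeSlot n r))).filter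
        (fun S => 1 ≤ degS S a ∧ degS S a ≤ s))
      (fun S => Disjoint (verts S) (A.erase a)) w
    rw [← hsplit]
    refine add_le_add ?_ ?_
    · have h1 := key_vertex hp0 hp1 hδ0 hδ1 f hf s A a ha
      rw [hAm] at h1
      refine le_trans (le_of_eq ?_) h1
      rw [Finset.filter_filter]
      refine Finset.sum_congr ?_ fun S _ => (hat_Tn_sq hp0 hp1 f S).symm
      ext S; simp only [mem_filter, and_assoc]
    · have h2 : ∑ S ∈ ((univ : Finset (Finset (HyperedgeSlot n r))).filter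
          (fun S => 1 ≤ degS S a ∧ degS S a ≤ s)).filter
            (fun S => ¬ Disjoint (verts S) (A.erase a)), w S
          ≤ ∑ a' ∈ A.erase a, ∑ S ∈ (univ : Finset (Finset (HyperedgeSlot n r))).filter
            (fun S => a ∈ verts S ∧ a' ∈ verts S), w S := by
        refine sum_le_sum_cover _ _ (fun a' S => a ∈ verts S ∧ a' ∈ verts S) _ hw0 ?_
        intro S hS
        rw [mem_filter, mem_filter] at hS
        obtain ⟨⟨-, h1, -⟩, h3⟩ := hS
        rw [Finset.not_disjoint_iff] at h3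
        obtain ⟨i, hi, hiA⟩ := h3
        exact ⟨i, hiA, (degS_pos_iff S a).mp h1, hi⟩
      refine h2.trans ?_
      have h3 : ∀ a' ∈ A.erase a, ∑ S ∈ (univ : Finset (Finset (HyperedgeSlot n r))).filter
            (fun S => a ∈ verts S ∧ a' ∈ verts S), w S ≤ Q / ((n : ℝ) * (n - 1)) := by
        intro a' ha'
        have hne : a ≠ a' := fun h => by
          rw [← h] at ha'; exact (Finset.notMem_erase a A) ha'
        have hn2 : 2 ≤ n := by
          have : 1 < Fintype.card (Fin n) := Fintype.one_lt_card_iff.mpr ⟨a, a', hne⟩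
          rw [Fintype.card_fin] at this
          omega
        have hn2' : (2 : ℝ) ≤ n := by exact_mod_cast hn2
        have hpos : 0 < (n : ℝ) * (n - 1) := by
          apply mul_pos <;> linarith
        rw [le_div_iff₀ hpos, ← hpair a a' hne]
        exact le_of_eq (mul_comm _ _)
      refine (Finset.sum_le_card_nsmul _ _ _ h3).trans ?_
      rw [Finset.card_erase_of_mem ha, hAm, nsmul_eq_mul]
  have hLam : Lam p δ f s = ∑ a : Fin n, ∑ S ∈ (univ : Finset (Finset (HyperedgeSlot n r))).filter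
      (fun S => 1 ≤ degS S a ∧ degS S a ≤ s), w S := rfl
  rw [hLam]
  refine (Finset.sum_le_sum fun a _ => hvert a).trans ?_
  rw [Finset.sum_add_distrib, ← Finset.mul_sum, ← Finset.mul_sum, sum_sum_infl,
    Finset.sum_const, Finset.card_univ, Fintype.card_fin, nsmul_eq_mul]
  refine add_le_add (le_of_eq (by ring)) ?_
  have hQ0 : 0 ≤ Q := by
    refine Finset.sum_nonneg fun S _ => mul_nonneg ?_ (hw0 S)
    rcases Nat.eq_zero_or_pos (verts S).card with h | h
    · rw [h]; simp
    · have : (1 : ℝ) ≤ (verts S).card := by exact_mod_cast h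
      apply mul_nonneg <;> linarith
  have hQle : Q ≤ r ^ 2 * (p * (1 - p) * totInf p f) / (4 * δ) := by
    have h1 : ∀ S : Finset (HyperedgeSlot n r),
        ((verts S).card : ℝ) * ((verts S).card - 1) * w S
          ≤ r ^ 2 / (4 * δ) * ((S.card : ℝ) * mass p f S) := by
      intro S
      have hv : ((verts S).card : ℝ) ≤ r * S.card := by exact_mod_cast card_verts_le S
      have hv0 : (0 : ℝ) ≤ (verts S).card := Nat.cast_nonneg _
      have h2 : ((verts S).card : ℝ) * ((verts S).card - 1) ≤ (r * S.card) * (r * S.card) := by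
        calc ((verts S).card : ℝ) * ((verts S).card - 1)
            ≤ (verts S).card * (verts S).card := by nlinarith
          _ ≤ _ := mul_le_mul hv hv hv0 (by positivity)
      have h3 := card_mul_pow_le hδ0 hδ1 S.card
      have hm0 := mass_nonneg (p := p) f S
      calc ((verts S).card : ℝ) * ((verts S).card - 1) * w S
          ≤ (r * S.card) * (r * S.card) * w S := mul_le_mul_of_nonneg_right h2 (hw0 S)
        _ = r ^ 2 * ((S.card : ℝ) * mass p f S) * ((S.card : ℝ) * (1 - δ) ^ (2 * S.card)) := by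
            rw [hw]; ring
        _ ≤ r ^ 2 * ((S.card : ℝ) * mass p f S) * (1 / (4 * δ)) :=
            mul_le_mul_of_nonneg_left h3 (by positivity)
        _ = r ^ 2 / (4 * δ) * ((S.card : ℝ) * mass p f S) := by ring
    refine (Finset.sum_le_sum fun S _ => h1 S).trans ?_
    rw [← Finset.mul_sum, ← mul_totInf_eq hp0 hp1 f]
    exact le_of_eq (by ring)
  -- final arithmetic
  refine (arith_aux m n hm hmn Q hQ0).trans ?_
  have h5 : (0 : ℝ) ≤ m / n := by positivity
  calc (m : ℝ) / n * Q ≤ m / n * (r ^ 2 * (p * (1 - p) * totInf p f) / (4 * δ)) :=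
        mul_le_mul_of_nonneg_left hQle h5
    _ = m / n * r ^ 2 * (p * (1 - p) * totInf p f) / (4 * δ) := by ring

/-- (6): the lower bound on the influence. -/
theorem lower_bound (hp0 : 0 < p) (hp1 : p < 1) (hδ0 : 0 ≤ δ) (hδ1 : δ ≤ 1) (hr : 2 ≤ r)
    (f : (HyperedgeSlot n r → Bool) → Bool) (s : ℕ) :
    ((s : ℝ) + 1) ^ ((r : ℝ) / ((r : ℝ) - 1)) / r *
        (vari p f - 2 * δ * (p * (1 - p) * totInf p f) - Lam p δ f s)
      ≤ p * (1 - p) * totInf p f := by
  have hr0 : (0 : ℝ) < r := by exact_mod_cast (by omega : 0 < r)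
  set w : Finset (HyperedgeSlot n r) → ℝ := fun S => (1 - δ) ^ (2 * S.card) * mass p f S with hw
  have h1δ : (0 : ℝ) ≤ 1 - δ := by linarith
  have hw0 : ∀ S, 0 ≤ w S := fun S => by
    have := mass_nonneg (p := p) f S
    positivity
  have hwle : ∀ S, w S ≤ mass p f S := fun S => by
    have h0 := mass_nonneg (p := p) f S
    have h1 : (1 - δ) ^ (2 * S.card) ≤ 1 := pow_le_one₀ h1δ (by linarith)
    calc w S = (1 - δ) ^ (2 * S.card) * mass p f S := rfl
      _ ≤ 1 * mass p f S := mul_le_mul_of_nonneg_right h1 h0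
      _ = mass p f S := one_mul _
  set E : ℝ := ((s : ℝ) + 1) ^ ((r : ℝ) / ((r : ℝ) - 1)) / r with hE
  have hE0 : 0 ≤ E := by positivity
  set G : Finset (Finset (HyperedgeSlot n r)) := univ.filter
    (fun S => S ≠ ∅ ∧ ∀ a ∈ verts S, s + 1 ≤ degS S a) with hG
  -- lower bound for the total noisy weight
  have hA : vari p f - 2 * δ * (p * (1 - p) * totInf p f)
      ≤ ∑ S ∈ (univ : Finset (Finset (HyperedgeSlot n r))).filter (fun S => S ≠ ∅), w S := by
    have h1 : ∀ S : Finset (HyperedgeSlot n r),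
        mass p f S - 2 * δ * ((S.card : ℝ) * mass p f S) ≤ w S := by
      intro S
      have hb := one_add_mul_le_pow (a := -δ) (by linarith) (2 * S.card)
      have hm0 := mass_nonneg (p := p) f S
      have e1 : (1 + -δ) ^ (2 * S.card) = (1 - δ) ^ (2 * S.card) := by
        congr 1
      rw [e1] at hb
      push_cast at hb
      calc mass p f S - 2 * δ * ((S.card : ℝ) * mass p f S)
          = (1 + 2 * (S.card : ℝ) * -δ) * mass p f S := by ring
        _ ≤ (1 - δ) ^ (2 * S.card) * mass p f S := mul_le_mul_of_nonneg_right hb hm0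
    have h2 : ∑ S ∈ (univ : Finset (Finset (HyperedgeSlot n r))).filter (fun S => S ≠ ∅),
        (mass p f S - 2 * δ * ((S.card : ℝ) * mass p f S))
        = vari p f - 2 * δ * (p * (1 - p) * totInf p f) := by
      rw [Finset.sum_sub_distrib, ← Finset.mul_sum, mul_totInf_eq hp0 hp1 f]
      congr 2
      rw [Finset.sum_filter]
      refine Finset.sum_congr rfl fun S _ => ?_
      split_ifs with hS
      · rfl
      · rw [not_not] at hS
        rw [hS]; simp
    rw [← h2]
    exact Finset.sum_le_sum fun S _ => h1 S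
  -- split off the bad sets
  have hB : ∑ S ∈ (univ : Finset (Finset (HyperedgeSlot n r))).filter (fun S => S ≠ ∅), w S
      ≤ ∑ S ∈ G, w S + Lam p δ f s := by
    rw [← Finset.sum_filter_add_sum_filter_not _ (fun S => ∀ a ∈ verts S, s + 1 ≤ degS S a) w]
    refine add_le_add (le_of_eq ?_) ?_
    · rw [hG, Finset.filter_filter]
    · refine sum_le_sum_cover _ _ (fun a S => 1 ≤ degS S a ∧ degS S a ≤ s) _ hw0 ?_
      intro S hS
      rw [mem_filter] at hS
      obtain ⟨-, hS2⟩ := hS
      push Not at hS2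
      obtain ⟨a, ha, hlt⟩ := hS2
      exact ⟨a, mem_univ _, (degS_pos_iff S a).mpr ha, by omega⟩
  -- good sets are large
  have hC : E * ∑ S ∈ G, w S ≤ p * (1 - p) * totInf p f := by
    rw [mul_totInf_eq hp0 hp1 f, Finset.mul_sum]
    have h1 : ∀ S ∈ G, E * w S ≤ (S.card : ℝ) * mass p f S := by
      intro S hS
      rw [hG, mem_filter] at hS
      obtain ⟨-, hne, hdeg⟩ := hS
      have h2 := comb_degree_rpow hr S (Finset.nonempty_iff_ne_empty.mpr hne) s hdeg
      have h3 : E ≤ S.card := by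
        rw [hE, div_le_iff₀ hr0, mul_comm]
        exact h2
      exact mul_le_mul h3 (hwle S) (hw0 S) (Nat.cast_nonneg _)
    refine (Finset.sum_le_sum h1).trans ?_
    refine Finset.sum_le_univ_sum_of_nonneg fun S => ?_
    have := mass_nonneg (p := p) f S
    positivity
  have hD : vari p f - 2 * δ * (p * (1 - p) * totInf p f) - Lam p δ f s ≤ ∑ S ∈ G, w S := by
    linarith
  exact (mul_le_mul_of_nonneg_left hD hE0).trans hC

/-- Main inequality, all `n ≥ r ≥ 2`, all `p`. -/
theorem influence_main (hr : 2 ≤ r) (hrn : r ≤ n) (hp0 : 0 < p) (hp1 : p < 1)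
    (f : (HyperedgeSlot n r → Bool) → Bool) (hf : IsSymmetric f) :
    Real.log n ^ ((r : ℝ) / ((r : ℝ) - 1)) * vari p f ≤ 2 ^ 16 * r * totInf p f := by
  by_contra hcon
  push Not at hcon
  have hq : 0 < p * (1 - p) := mul_pos hp0 (by linarith)
  have hq4 : p * (1 - p) ≤ 1 / 4 := by nlinarith [sq_nonneg (p - 1 / 2)]
  have hr0 : (0 : ℝ) < r := by exact_mod_cast (by omega : 0 < r)
  have hI0 : 0 ≤ totInf p f := Finset.sum_nonneg fun e _ => infl_nonneg hp0.le hp1.le f e
  have hW0 : 0 ≤ vari p f := vari_nonneg f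
  have hW : 0 < vari p f := by
    rcases hW0.eq_or_lt with h | h
    · rw [← h, mul_zero] at hcon
      have : 0 ≤ 2 ^ 16 * (r : ℝ) * totInf p f := by positivity
      linarith
    · exact h
  set W := vari p f with hWdef
  set lam := p * (1 - p) with hlam
  set K : ℝ := lam * totInf p f / W with hK
  have hKW : K * W = lam * totInf p f := by rw [hK]; field_simp
  have hK1 : 1 ≤ K := by
    rw [hK, le_div_iff₀ hW, one_mul]
    exact vari_le hp0 hp1 f
  have hKlt : K * (2 ^ 16 * r) < lam * Real.log n ^ ((r : ℝ) / ((r : ℝ) - 1)) := by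
    rw [hK, div_mul_eq_mul_div, div_lt_iff₀ hW]
    calc lam * totInf p f * (2 ^ 16 * r) = lam * (2 ^ 16 * r * totInf p f) := by ring
      _ < lam * (Real.log n ^ ((r : ℝ) / ((r : ℝ) - 1)) * W) :=
        mul_lt_mul_of_pos_left hcon hq
      _ = _ := by ring
  obtain ⟨hN1, hN2⟩ := numerics r n hr hrn lam K hq hq4 hK1 hKlt
  set s := ⌊Real.log n * Real.sqrt lam / 2 ^ 7⌋₊ with hs
  have hn1 : 1 ≤ n := by omega
  have hm1 : 1 ≤ Nat.sqrt n := Nat.sqrt_pos.mpr hn1
  have hmn : Nat.sqrt n ≤ n := Nat.sqrt_le_self n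
  have hK0 : 0 < K := by linarith
  have hδ0 : (0 : ℝ) < 1 / (4 * K) := by positivity
  have hδ1 : 1 / (4 * K) ≤ 1 := by
    rw [div_le_one (by positivity)]; linarith
  have hL := Lam_le hp0 hp1 hδ0 hδ1 f hf (Nat.sqrt n) s hm1 hmn
  have hlow := lower_bound hp0 hp1 hδ0.le hδ1 hr f s
  rw [← hlam, ← hKW] at hL hlow
  have hL2 : Lam p (1 / (4 * K)) f s ≤ W / 4 := by
    refine hL.trans ?_
    have e1 : lam * (Nat.sqrt n : ℝ) * (1 / (4 * K)) = lam * (Nat.sqrt n : ℝ) / (4 * K) := by ring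
    have e2 : (4 : ℝ) * (1 / (4 * K)) = 1 / K := by field_simp
    rw [e1, e2]
    calc (r : ℝ) * (K * W) * Real.sqrt (4 / lam) ^ s / Real.sqrt (lam * (Nat.sqrt n : ℝ) / (4 * K))
          + (Nat.sqrt n : ℝ) / n * r ^ 2 * (K * W) / (1 / K)
        = W * ((r : ℝ) * K * Real.sqrt (4 / lam) ^ s
            / Real.sqrt (lam * (Nat.sqrt n : ℝ) / (4 * K))
          + (Nat.sqrt n : ℝ) / n * r ^ 2 * K ^ 2) := by
          rw [div_div_eq_mul_div, div_one]; ring
      _ ≤ W * (1 / 4) := mul_le_mul_of_nonneg_left hN1 hW0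
      _ = W / 4 := by ring
  set E : ℝ := ((s : ℝ) + 1) ^ ((r : ℝ) / ((r : ℝ) - 1)) with hE
  have hE0 : 0 ≤ E := by positivity
  have e3 : 2 * (1 / (4 * K)) * (K * W) = W / 2 := by field_simp; ring
  rw [e3] at hlow
  have h5 : E / r * (W / 4) ≤ K * W := by
    refine le_trans (mul_le_mul_of_nonneg_left ?_ (by positivity)) hlow
    linarith
  have h6 : E ≤ 4 * r * K := by
    have h7 : E / r * (W / 4) = E * (W / (4 * r)) := by ring
    rw [h7] at h5
    have h8 : K * W = (4 * r * K) * (W / (4 * r)) := by field_simp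
    rw [h8] at h5
    exact le_of_mul_le_mul_right h5 (by positivity)
  linarith

/-- The Prelude form: `Var ≤ 2^16 r / (log n)^(r/(r-1)) * I`. -/
theorem influence_prelude (hr : 2 ≤ r) (hrn : r ≤ n) (hp0 : 0 < p) (hp1 : p < 1)
    (f : (HyperedgeSlot n r → Bool) → Bool) (hf : IsSymmetric f) :
    probTrue p f * (1 - probTrue p f)
      ≤ (2 ^ 16 * r) / Real.log n ^ ((r : ℝ) / ((r : ℝ) - 1)) * totalInfluence p f := by
  have h := influence_main hr hrn hp0 hp1 f hf
  rw [vari_eq hp0 hp1, ← probTrue_eq, ← totalInfluence_eq] at h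
  have hn : (1 : ℝ) < n := by exact_mod_cast (by omega : 1 < n)
  have hL : 0 < Real.log n ^ ((r : ℝ) / ((r : ℝ) - 1)) :=
    Real.rpow_pos_of_pos (Real.log_pos hn) _
  rw [div_mul_eq_mul_div, le_div_iff₀ hL, mul_comm]
  exact h

end Crest.Agent.R056
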