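import Mathlib
import Crest.Prelude.Def_FinProb

set_option autoImplicit false

namespace Crest.Agent.R056.BL

open Finset
open Crest.FinProb

variable {ι : Type*} [Fintype ι] [DecidableEq ι]

/-- expectation under the `p`-biased product measure. -/
noncomputable def ex (p : ℝ) (g : (ι → Bool) → ℝ) : ℝ :=
  ∑ ω : ι → Bool, bernoulliWeight p ω * g ω

/-- one-bit expectation. -/
noncomputable def ex1 (p : ℝ) (ψ : Bool → ℝ) : ℝ := p * ψ true + (1 - p) * ψ false

/-- normalized `p`-biased character of one bit. -/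
noncomputable def phi (p : ℝ) (b : Bool) : ℝ :=
  ((if b then 1 else 0) - p) / Real.sqrt (p * (1 - p))

/-- the `p`-biased Fourier basis. -/
noncomputable def chi (p : ℝ) (S : Finset ι) (ω : ι → Bool) : ℝ := ∏ e ∈ S, phi p (ω e)

lemma ex_add (p : ℝ) (g h : (ι → Bool) → ℝ) :
    ex p (fun ω => g ω + h ω) = ex p g + ex p h := by
  simp [ex, mul_add, Finset.sum_add_distrib]

lemma ex_sub (p : ℝ) (g h : (ι → Bool) → ℝ) :
    ex p (fun ω => g ω - h ω) = ex p g - ex p h := by
  simp [ex, mul_sub, Finset.sum_sub_distrib]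

lemma ex_smul (p c : ℝ) (g : (ι → Bool) → ℝ) :
    ex p (fun ω => c * g ω) = c * ex p g := by
  simp only [ex, Finset.mul_sum]
  refine Finset.sum_congr rfl fun ω _ => by ring

lemma ex_sum {α : Type*} (s : Finset α) (p : ℝ) (g : α → (ι → Bool) → ℝ) :
    ex p (fun ω => ∑ a ∈ s, g a ω) = ∑ a ∈ s, ex p (g a) := by
  simp only [ex, Finset.mul_sum]
  rw [Finset.sum_comm]

lemma weight_nonneg {p : ℝ} (hp0 : 0 ≤ p) (hp1 : p ≤ 1) (ω : ι → Bool) :
    0 ≤ bernoulliWeight p ω := by
  unfold bernoulliWeight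
  refine Finset.prod_nonneg fun i _ => ?_
  split_ifs <;> linarith

lemma ex_nonneg {p : ℝ} (hp0 : 0 ≤ p) (hp1 : p ≤ 1) {g : (ι → Bool) → ℝ} (hg : ∀ ω, 0 ≤ g ω) :
    0 ≤ ex p g :=
  Finset.sum_nonneg fun ω _ => mul_nonneg (weight_nonneg hp0 hp1 ω) (hg ω)

lemma ex_mono {p : ℝ} (hp0 : 0 ≤ p) (hp1 : p ≤ 1) {g h : (ι → Bool) → ℝ} (hg : ∀ ω, g ω ≤ h ω) :
    ex p g ≤ ex p h :=
  Finset.sum_le_sum fun ω _ => mul_le_mul_of_nonneg_left (hg ω) (weight_nonneg hp0 hp1 ω)

/-- Fubini in one coordinate. -/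
lemma ex_coord (p : ℝ) (e : ι) (g : (ι → Bool) → ℝ) :
    ex p g = ex p (fun ω => p * g (Function.update ω e true) +
      (1 - p) * g (Function.update ω e false)) := by
  classical
  have key : ∀ F : (ι → Bool) → ℝ, ∑ ω : ι → Bool, F ω =
      ∑ τ : {j // j ≠ e} → Bool,
        (F ((Equiv.funSplitAt e Bool).symm (true, τ)) +
          F ((Equiv.funSplitAt e Bool).symm (false, τ))) := by
    intro F
    rw [← (Equiv.funSplitAt e Bool).symm.sum_comp F, Fintype.sum_prod_type_right]
    refine Finset.sum_congr rfl fun τ _ => ?_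
    rw [Fintype.sum_bool]
  have hup : ∀ (b c : Bool) (τ : {j // j ≠ e} → Bool),
      Function.update ((Equiv.funSplitAt e Bool).symm (b, τ)) e c =
        (Equiv.funSplitAt e Bool).symm (c, τ) := by
    intro b c τ
    funext j
    by_cases hj : j = e
    · subst hj; simp
    · simp [hj]
  have hw : ∀ (b : Bool) (τ : {j // j ≠ e} → Bool),
      bernoulliWeight p ((Equiv.funSplitAt e Bool).symm (b, τ)) =
        (if b then p else 1 - p) *
          ∏ i ∈ univ.erase e, (if ((Equiv.funSplitAt e Bool).symm (true, τ)) i then p else 1 - p) := by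
    intro b τ
    unfold bernoulliWeight
    rw [← Finset.mul_prod_erase univ _ (Finset.mem_univ e)]
    congr 1
    · simp
    · refine Finset.prod_congr rfl fun i hi => ?_
      have : i ≠ e := (Finset.mem_erase.mp hi).1
      simp [this]
  unfold ex
  rw [key, key]
  refine Finset.sum_congr rfl fun τ _ => ?_
  simp only [hup, hw]
  simp
  ring

lemma ex_mul_indep (p : ℝ) (e : ι) (ψ : Bool → ℝ) (h : (ι → Bool) → ℝ)
    (hh : ∀ ω b, h (Function.update ω e b) = h ω) :
    ex p (fun ω => ψ (ω e) * h ω) = ex1 p ψ * ex p h := by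
  rw [ex_coord p e, ← ex_smul]
  congr 1
  funext ω
  simp [hh, ex1]
  ring


/-- expectation of a product of one-bit functions. -/
lemma ex_prod (p : ℝ) (ψ : ι → Bool → ℝ) :
    ex p (fun ω => ∏ i, ψ i (ω i)) = ∏ i, ex1 p (ψ i) := by
  have h := Finset.prod_univ_sum (fun _ : ι => (univ : Finset Bool))
    (fun i b => (if b then p else 1 - p) * ψ i b)
  rw [Fintype.piFinset_univ] at h
  unfold ex ex1 bernoulliWeight
  simp only [← Finset.prod_mul_distrib]
  rw [← h]
  refine Finset.prod_congr rfl fun i _ => ?_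
  simp

lemma ex_const (p c : ℝ) : ex p (fun _ : ι → Bool => c) = c := by
  have h := ex_prod p (fun (_ : ι) (_ : Bool) => (1 : ℝ))
  have h1 : ex p (fun _ : ι → Bool => (1 : ℝ)) = 1 := by
    simpa [ex1] using h
  have h2 := ex_smul p c (fun _ : ι → Bool => (1 : ℝ))
  simpa [h1] using h2

section moments
variable {p : ℝ} (hp0 : 0 < p) (hp1 : p < 1)
include hp0 hp1

lemma pq_pos : 0 < p * (1 - p) := mul_pos hp0 (by linarith)

lemma sqrt_pq_pos : 0 < Real.sqrt (p * (1 - p)) := Real.sqrt_pos.mpr (pq_pos hp0 hp1)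

lemma sq_sqrt_pq : Real.sqrt (p * (1 - p)) ^ 2 = p * (1 - p) :=
  Real.sq_sqrt (pq_pos hp0 hp1).le

lemma phi_sq (b : Bool) : phi p b ^ 2 = (if b then (1 - p) / p else p / (1 - p)) := by
  have h1 : (1 : ℝ) - p ≠ 0 := by linarith
  unfold phi
  rw [div_pow, sq_sqrt_pq hp0 hp1]
  cases b
  · simp; field_simp
  · simp; field_simp

lemma ex1_phi : ex1 p (phi p) = 0 := by
  unfold ex1 phi
  simp
  ring

lemma ex1_phi_sq : ex1 p (fun b => phi p b * phi p b) = 1 := by
  have h1 : (1 : ℝ) - p ≠ 0 := by linarith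
  have h0 : p ≠ 0 := by linarith
  unfold ex1
  simp only [← sq, phi_sq hp0 hp1]
  simp
  field_simp
  ring

lemma ex1_phi_four : ex1 p (fun b => phi p b ^ 4) ≤ 1 / (p * (1 - p)) := by
  have h1 : 0 < (1 : ℝ) - p := by linarith
  have : ex1 p (fun b => phi p b ^ 4) = ((1 - p) ^ 3 + p ^ 3) / (p * (1 - p)) := by
    unfold ex1
    have e : ∀ b, phi p b ^ 4 = (phi p b ^ 2) ^ 2 := fun b => by ring
    simp only [e, phi_sq hp0 hp1]
    simp
    field_simp
  rw [this]
  apply div_le_div_of_nonneg_right _ (pq_pos hp0 hp1).le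
  nlinarith [mul_pos hp0 h1]

/-- the two-point kernel. -/
lemma kernel (b c : Bool) :
    (if b then p else 1 - p) * (1 + phi p b * phi p c) = if b = c then 1 else 0 := by
  have h1 : (1 : ℝ) - p ≠ 0 := by linarith
  have h0 : p ≠ 0 := by linarith
  have hs := (sqrt_pq_pos hp0 hp1).ne'
  have hsq := sq_sqrt_pq hp0 hp1
  have e : phi p b * phi p c = ((if b then 1 else 0) - p) * ((if c then 1 else 0) - p) / (p * (1 - p)) := by
    unfold phi
    rw [div_mul_div_comm, ← sq, hsq]
  rw [e]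
  have hpq : p * (1 - p) ≠ 0 := mul_ne_zero h0 h1
  cases b <;> cases c <;>
    simp only [Bool.false_eq_true, Bool.true_eq_false, if_true, if_false, reduceCtorEq] <;>
    field_simp <;> ring

lemma ex_chi_mul_chi (S T : Finset ι) :
    ex p (fun ω => chi p S ω * chi p T ω) = if S = T then 1 else 0 := by
  have e : ∀ ω : ι → Bool, chi p S ω * chi p T ω =
      ∏ i, ((if i ∈ S then phi p (ω i) else 1) * (if i ∈ T then phi p (ω i) else 1)) := by
    intro ω
    unfold chi
    rw [Finset.prod_mul_distrib, Finset.prod_ite_mem, Finset.prod_ite_mem]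
    simp
  simp only [e]
  rw [ex_prod p (fun i b => (if i ∈ S then phi p b else 1) * (if i ∈ T then phi p b else 1))]
  by_cases hST : S = T
  · subst hST
    rw [if_pos rfl]
    refine Finset.prod_eq_one fun i _ => ?_
    by_cases hi : i ∈ S
    · simp only [hi, if_true]; exact ex1_phi_sq hp0 hp1
    · simp [hi, ex1]
  · rw [if_neg hST]
    obtain ⟨i, hi⟩ : ∃ i, ¬ (i ∈ S ↔ i ∈ T) := by
      by_contra hcon
      push Not at hcon
      exact hST (Finset.ext hcon)
    refine Finset.prod_eq_zero (Finset.mem_univ i) ?_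
    have h0 := ex1_phi hp0 hp1
    unfold ex1 at h0 ⊢
    by_cases h1 : i ∈ S <;> by_cases h2 : i ∈ T
    · exact absurd (by tauto) hi
    · simpa [h1, h2] using h0
    · simpa [h1, h2] using h0
    · exact absurd (by tauto) hi

end moments

/-- Fourier coefficient. -/
noncomputable def coef (p : ℝ) (g : (ι → Bool) → ℝ) (S : Finset ι) : ℝ :=
  ex p (fun ω => g ω * chi p S ω)

lemma fourier_expansion {p : ℝ} (hp0 : 0 < p) (hp1 : p < 1) (g : (ι → Bool) → ℝ) (τ : ι → Bool) :
    g τ = ∑ S : Finset ι, coef p g S * chi p S τ := by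
  have hk : ∀ ω : ι → Bool, bernoulliWeight p ω * ∑ S : Finset ι, chi p S ω * chi p S τ =
      if ω = τ then 1 else 0 := by
    intro ω
    have h1 : ∑ S : Finset ι, chi p S ω * chi p S τ = ∏ i, (1 + phi p (ω i) * phi p (τ i)) := by
      rw [Finset.prod_one_add]
      rw [Finset.powerset_univ]
      refine Finset.sum_congr rfl fun S _ => ?_
      unfold chi
      rw [Finset.prod_mul_distrib]
    rw [h1]
    unfold bernoulliWeight
    rw [← Finset.prod_mul_distrib]
    simp only [kernel hp0 hp1]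
    by_cases h : ω = τ
    · subst h; simp
    · rw [if_neg h]
      obtain ⟨i, hi⟩ : ∃ i, ω i ≠ τ i := by
        by_contra hcon
        push Not at hcon
        exact h (funext hcon)
      exact Finset.prod_eq_zero (Finset.mem_univ i) (by simp [hi])
  calc g τ = ∑ ω : ι → Bool, (if ω = τ then 1 else 0) * g ω := by simp
    _ = ∑ ω : ι → Bool, (bernoulliWeight p ω * ∑ S : Finset ι, chi p S ω * chi p S τ) * g ω := by
        simp only [hk]
    _ = _ := by
        unfold coef ex
        simp only [Finset.mul_sum, Finset.sum_mul]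
        rw [Finset.sum_comm]
        refine Finset.sum_congr rfl fun S _ => Finset.sum_congr rfl fun ω _ => by ring

lemma ex_lincomb_sq {p : ℝ} (hp0 : 0 < p) (hp1 : p < 1) (F : Finset (Finset ι))
    (c d : Finset ι → ℝ) :
    ex p (fun ω => (∑ S ∈ F, c S * chi p S ω) * (∑ S ∈ F, d S * chi p S ω)) =
      ∑ S ∈ F, c S * d S := by
  have e : ∀ ω : ι → Bool, (∑ S ∈ F, c S * chi p S ω) * (∑ S ∈ F, d S * chi p S ω) =
      ∑ S ∈ F, ∑ T ∈ F, (c S * d T) * (chi p S ω * chi p T ω) := by
    intro ω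
    rw [Finset.sum_mul_sum]
    refine Finset.sum_congr rfl fun S _ => Finset.sum_congr rfl fun T _ => by ring
  simp only [e]
  rw [ex_sum]
  refine Finset.sum_congr rfl fun S hS => ?_
  rw [ex_sum]
  simp only [ex_smul, ex_chi_mul_chi hp0 hp1]
  simp [hS]

lemma parseval {p : ℝ} (hp0 : 0 < p) (hp1 : p < 1) (g : (ι → Bool) → ℝ) :
    ex p (fun ω => g ω ^ 2) = ∑ S : Finset ι, coef p g S ^ 2 := by
  have h := ex_lincomb_sq hp0 hp1 (univ : Finset (Finset ι)) (coef p g) (coef p g)
  simp only [← fourier_expansion hp0 hp1 g] at h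
  simpa [sq] using h

end Crest.Agent.R056.BL
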