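import Mathlib
import Crest.Prelude.Def_FinProb
import Crest.Prelude.Def_HypergraphCube
import Crest.Prelude.Def_RandomGraph

/-!
Russo-Margulis formula and the integration step: S0077 follows from the influence inequality
`Var ≤ 2^17/(log n)^2 * I` for symmetric Boolean functions of the 2-uniform hypergraph cube.
-/

set_option autoImplicit false
set_option linter.unusedSectionVars false

namespace Crest.Agent.R056.Russo

open Finset Crest.FinProb
open Crest.CombinatoricsR.HypergraphCube Crest.CombinatoricsR.RandomGraph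

section General

variable {ι : Type*} [Fintype ι] [DecidableEq ι]

/-- weight of one coordinate -/
noncomputable def w (p : ℝ) (b : Bool) : ℝ := if b then p else 1 - p

lemma bernoulliWeight_eq (p : ℝ) (ω : ι → Bool) : bernoulliWeight p ω = ∏ i, w p (ω i) := rfl

lemma bernoulliProb_eq (p : ℝ) (f : (ι → Bool) → Bool) :
    bernoulliProb p {x | f x = true} = ∑ ω, (if f ω then bernoulliWeight p ω else 0) := by
  classical
  unfold bernoulliProb
  rw [Finset.sum_filter]
  refine Finset.sum_congr rfl fun ω _ => ?_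
  simp only [Set.mem_ofPred_eq]
  congr

lemma bernoulliProb_eq' (p : ℝ) (E : Set (ι → Bool)) [DecidablePred (· ∈ E)] :
    bernoulliProb p E = ∑ ω, (if ω ∈ E then bernoulliWeight p ω else 0) := by
  classical
  unfold bernoulliProb
  rw [Finset.sum_filter]
  refine Finset.sum_congr rfl fun ω _ => ?_
  congr

lemma w_nonneg {p : ℝ} (hp0 : 0 ≤ p) (hp1 : p ≤ 1) (b : Bool) : 0 ≤ w p b := by
  unfold w; split <;> linarith

lemma w_add_not (p : ℝ) (b : Bool) : w p b + w p (!b) = 1 := by
  cases b <;> simp [w]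

/-- flip coordinate `i` -/
def flip (i : ι) (ω : ι → Bool) : ι → Bool := Function.update ω i (!(ω i))

lemma flip_flip (i : ι) (ω : ι → Bool) : flip i (flip i ω) = ω := by
  unfold flip; ext j; by_cases h : j = i
  · subst h; simp
  · simp [h]

def flipEquiv (i : ι) : (ι → Bool) ≃ (ι → Bool) where
  toFun := flip i
  invFun := flip i
  left_inv := flip_flip i
  right_inv := flip_flip i

lemma sum_flip (i : ι) (F : (ι → Bool) → ℝ) : ∑ ω, F (flip i ω) = ∑ ω, F ω :=
  Equiv.sum_comp (flipEquiv i) F

lemma two_mul_sum (i : ι) (F : (ι → Bool) → ℝ) : 2 * ∑ ω, F ω = ∑ ω, (F ω + F (flip i ω)) := by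
  rw [Finset.sum_add_distrib, sum_flip]; ring

/-- product of weights over coordinates other than `i` -/
noncomputable def wprod (p : ℝ) (i : ι) (ω : ι → Bool) : ℝ := ∏ j ∈ univ.erase i, w p (ω j)

lemma wprod_flip (p : ℝ) (i : ι) (ω : ι → Bool) : wprod p i (flip i ω) = wprod p i ω := by
  unfold wprod flip
  refine Finset.prod_congr rfl fun j hj => ?_
  rw [Function.update_of_ne (Finset.ne_of_mem_erase hj)]

lemma weight_eq (p : ℝ) (i : ι) (ω : ι → Bool) :
    bernoulliWeight p ω = w p (ω i) * wprod p i ω := by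
  rw [bernoulliWeight_eq, wprod, Finset.mul_prod_erase univ (fun j => w p (ω j)) (Finset.mem_univ i)]

lemma flip_apply (i : ι) (ω : ι → Bool) : flip i ω i = !(ω i) := by simp [flip]

lemma update_flip (i : ι) (ω : ι → Bool) (b : Bool) :
    Function.update (flip i ω) i b = Function.update ω i b := by
  simp [flip]

/-- the event that `i` is pivotal -/
def piv (f : (ι → Bool) → Bool) (i : ι) (ω : ι → Bool) : Bool :=
  f (Function.update ω i true) != f (Function.update ω i false)

lemma piv_flip (f : (ι → Bool) → Bool) (i : ι) (ω : ι → Bool) : piv f i (flip i ω) = piv f i ω := by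
  unfold piv; rw [update_flip, update_flip]

/-- the probability that `i` is pivotal -/
noncomputable def inf (p : ℝ) (f : (ι → Bool) → Bool) (i : ι) : ℝ :=
  bernoulliProb p {x | f (Function.update x i true) ≠ f (Function.update x i false)}

lemma two_mul_inf (p : ℝ) (f : (ι → Bool) → Bool) (i : ι) :
    2 * inf p f i = ∑ ω, (if piv f i ω then wprod p i ω else 0) := by
  have h1 : inf p f i = ∑ ω, (if piv f i ω then bernoulliWeight p ω else 0) := by
    unfold inf bernoulliProb
    rw [Finset.sum_filter]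
    refine Finset.sum_congr rfl fun ω _ => ?_
    simp only [Set.mem_ofPred_eq, piv, bne_iff_ne]
    congr
  rw [h1, two_mul_sum i]
  refine Finset.sum_congr rfl fun ω _ => ?_
  simp only [piv_flip]
  by_cases h : piv f i ω
  · simp only [h, if_true]
    rw [weight_eq p i ω, weight_eq p i (flip i ω), wprod_flip, flip_apply, ← add_mul, w_add_not, one_mul]
  · simp [h]

/-- derivative of the weight -/
lemma hasDerivAt_w (p : ℝ) (b : Bool) : HasDerivAt (fun p => w p b) (if b then 1 else -1) p := by
  cases b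
  · simp only [w, Bool.false_eq_true, if_false]
    simpa using (hasDerivAt_id p).const_sub 1
  · simp only [w, if_true]
    exact hasDerivAt_id p

lemma hasDerivAt_weight (p : ℝ) (ω : ι → Bool) :
    HasDerivAt (fun p => bernoulliWeight p ω)
      (∑ i, wprod p i ω * (if ω i then 1 else -1)) p := by
  have h := HasDerivAt.fun_finsetProd (u := (univ : Finset ι)) (f := fun i p => w p (ω i))
    (f' := fun i => (if ω i then (1:ℝ) else -1)) (x := p) (fun i _ => hasDerivAt_w p (ω i))
  simpa [wprod, smul_eq_mul, bernoulliWeight_eq] using h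

noncomputable def mu (p : ℝ) (f : (ι → Bool) → Bool) : ℝ := bernoulliProb p {x | f x = true}

lemma mu_eq (p : ℝ) (f : (ι → Bool) → Bool) :
    mu p f = ∑ ω, (if f ω then bernoulliWeight p ω else 0) := bernoulliProb_eq p f

/-- monotone Boolean function -/
def Mono (f : (ι → Bool) → Bool) : Prop :=
  ∀ i ω, f (Function.update ω i false) = true → f (Function.update ω i true) = true

theorem hasDerivAt_mu (p : ℝ) (f : (ι → Bool) → Bool) (hf : Mono f) :
    HasDerivAt (fun p => mu p f) (∑ i, inf p f i) p := by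
  have h1 : HasDerivAt (fun p => mu p f)
      (∑ ω, (if f ω then (∑ i, wprod p i ω * (if ω i then 1 else -1)) else 0)) p := by
    have h := HasDerivAt.fun_sum (u := (univ : Finset (ι → Bool)))
      (A := fun ω p => (if f ω then bernoulliWeight p ω else 0))
      (A' := fun ω => (if f ω then (∑ i, wprod p i ω * (if ω i then 1 else -1)) else 0)) (x := p)
      (fun ω _ => by
        by_cases hω : f ω
        · simp only [hω, if_true]; exact hasDerivAt_weight p ω
        · simp only [hω]; exact hasDerivAt_const p (0:ℝ))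
    simpa only [mu_eq] using h
  have h2 : (∑ ω, (if f ω then (∑ i, wprod p i ω * (if ω i then 1 else -1)) else 0))
      = ∑ i, inf p f i := by
    have : ∀ ω : ι → Bool, (if f ω then (∑ i, wprod p i ω * (if ω i then (1:ℝ) else -1)) else 0)
        = ∑ i, (if f ω then wprod p i ω * (if ω i then 1 else -1) else 0) := by
      intro ω; split
      · rfl
      · simp
    simp only [this]
    rw [Finset.sum_comm]
    refine Finset.sum_congr rfl fun i _ => ?_
    have h3 := two_mul_inf p f i
    have h4 := two_mul_sum i (fun ω => (if f ω then wprod p i ω * (if ω i then (1:ℝ) else -1) else 0))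
    have h5 : ∑ ω, ((if f ω then wprod p i ω * (if ω i then (1:ℝ) else -1) else 0)
        + (if f (flip i ω) then wprod p i (flip i ω) * (if (flip i ω) i then (1:ℝ) else -1) else 0))
        = ∑ ω, (if piv f i ω then wprod p i ω else 0) := by
      refine Finset.sum_congr rfl fun ω _ => ?_
      rw [wprod_flip, flip_apply]
      have hm := hf i ω
      unfold piv flip
      cases hb : ω i
      · have e1 : Function.update ω i false = ω := by rw [← hb]; simp
        rw [e1] at hm ⊢
        simp only [Bool.not_false]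
        cases h6 : f ω <;> cases h7 : f (Function.update ω i true) <;> simp_all
      · have e1 : Function.update ω i true = ω := by rw [← hb]; simp
        rw [e1] at hm ⊢
        simp only [Bool.not_true]
        cases h6 : f ω <;> cases h7 : f (Function.update ω i false) <;> simp_all
    linarith
  rw [← h2]; exact h1

lemma inf_nonneg {p : ℝ} (hp0 : 0 ≤ p) (hp1 : p ≤ 1) (f : (ι → Bool) → Bool) (i : ι) :
    0 ≤ inf p f i := by
  have h := two_mul_inf p f i
  have : 0 ≤ ∑ ω, (if piv f i ω then wprod p i ω else 0) := by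
    refine Finset.sum_nonneg fun ω _ => ?_
    split
    · exact Finset.prod_nonneg fun j _ => w_nonneg hp0 hp1 _
    · exact le_rfl
  linarith

end General

section ODE

/-- Integration of the differential inequality `m' ≥ K m (1 - m)` (logit). -/
theorem ode_step (m m' : ℝ → ℝ) (K ε p q : ℝ) (hK : 0 < K) (hε0 : 0 < ε) (hε : ε < 1 / 2)
    (hp0 : 0 ≤ p) (hq1 : q ≤ 1)
    (hder : ∀ t, HasDerivAt m (m' t) t)
    (hnn : ∀ t, 0 < t → t < 1 → 0 ≤ m' t)
    (hineq : ∀ t, 0 < t → t < 1 → m t * (1 - m t) ≤ 1 / K * m' t)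
    (hp : ε ≤ m p) (hq : p + 4 / K * Real.log (1 / (2 * ε)) ≤ q) : 1 - ε ≤ m q := by
  by_contra hcon
  push Not at hcon
  have hlog : 0 < Real.log (1 / (2 * ε)) := by
    apply Real.log_pos
    rw [lt_div_iff₀ (by positivity)]
    linarith
  have hpq : p < q := by
    have : 0 < 4 / K * Real.log (1 / (2 * ε)) := by positivity
    linarith
  have hcont : Continuous m := continuous_iff_continuousAt.2 fun t => (hder t).continuousAt
  have hmono : MonotoneOn m (Set.Icc p q) := by
    apply monotoneOn_of_deriv_nonneg (convex_Icc p q) hcont.continuousOn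
    · exact fun t _ => (hder t).differentiableAt.differentiableWithinAt
    · intro t ht
      rw [interior_Icc] at ht
      rw [(hder t).deriv]
      exact hnn t (by linarith [ht.1]) (by linarith [ht.2])
  have hlo : ∀ t ∈ Set.Icc p q, ε ≤ m t := fun t ht =>
    hp.trans (hmono (Set.left_mem_Icc.2 hpq.le) ht ht.1)
  have hhi : ∀ t ∈ Set.Icc p q, m t < 1 - ε := fun t ht =>
    lt_of_le_of_lt (hmono ht (Set.right_mem_Icc.2 hpq.le) ht.2) hcon
  have hpos : ∀ t ∈ Set.Icc p q, 0 < m t := fun t ht => lt_of_lt_of_le hε0 (hlo t ht)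
  have hpos' : ∀ t ∈ Set.Icc p q, 0 < 1 - m t := fun t ht => by linarith [hhi t ht]
  have hg : ∀ t ∈ Set.Icc p q, HasDerivAt (fun t => Real.log (m t) - Real.log (1 - m t) - K * t)
      (m' t / m t - (-(m' t)) / (1 - m t) - K * 1) t := by
    intro t ht
    have h1 := (hder t).log (hpos t ht).ne'
    have h2 := ((hder t).const_sub 1).log (hpos' t ht).ne'
    exact (h1.sub h2).sub ((hasDerivAt_id t).const_mul K)
  have hgm : MonotoneOn (fun t => Real.log (m t) - Real.log (1 - m t) - K * t) (Set.Icc p q) := by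
    apply monotoneOn_of_deriv_nonneg (convex_Icc p q)
    · exact fun t ht => (hg t ht).continuousAt.continuousWithinAt
    · intro t ht
      rw [interior_Icc] at ht
      exact (hg t ⟨ht.1.le, ht.2.le⟩).differentiableAt.differentiableWithinAt
    · intro t ht
      rw [interior_Icc] at ht
      have ht' : t ∈ Set.Icc p q := ⟨ht.1.le, ht.2.le⟩
      rw [(hg t ht').deriv]
      have a1 := hpos t ht'
      have a2 := hpos' t ht'
      have h3 := hineq t (by linarith [ht.1]) (by linarith [ht.2])
      have h4 : m' t / m t - (-(m' t)) / (1 - m t) = m' t / (m t * (1 - m t)) := by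
        field_simp
        ring
      rw [h4, mul_one, sub_nonneg, le_div_iff₀ (by positivity)]
      have h5 : K * (m t * (1 - m t)) ≤ K * (1 / K * m' t) := mul_le_mul_of_nonneg_left h3 hK.le
      have h6 : K * (1 / K * m' t) = m' t := by field_simp
      linarith
  have hfin := hgm (Set.left_mem_Icc.2 hpq.le) (Set.right_mem_Icc.2 hpq.le) hpq.le
  simp only at hfin
  have b1 : Real.log ε ≤ Real.log (m p) := Real.log_le_log hε0 hp
  have b2 : Real.log (1 - m p) ≤ Real.log (1 - ε) :=
    Real.log_le_log (hpos' p (Set.left_mem_Icc.2 hpq.le)) (by linarith)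
  have b3 : Real.log (m q) < Real.log (1 - ε) :=
    Real.log_lt_log (hpos q (Set.right_mem_Icc.2 hpq.le)) hcon
  have b4 : Real.log ε < Real.log (1 - m q) := Real.log_lt_log hε0 (by linarith)
  have b5 : 4 * Real.log (1 / (2 * ε)) ≤ K * (q - p) := by
    have : K * (4 / K * Real.log (1 / (2 * ε))) ≤ K * (q - p) :=
      mul_le_mul_of_nonneg_left (by linarith) hK.le
    have h6 : K * (4 / K * Real.log (1 / (2 * ε))) = 4 * Real.log (1 / (2 * ε)) := by field_simp
    linarith
  have b6 : Real.log (1 / (2 * ε)) = - Real.log 2 - Real.log ε := by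
    rw [one_div, Real.log_inv, Real.log_mul (by norm_num) hε0.ne']; ring
  have b7 : Real.log 4 + Real.log ε + Real.log (1 - ε) ≤ 0 := by
    rw [← Real.log_mul (by norm_num) hε0.ne', ← Real.log_mul (by positivity) (by linarith)]
    apply Real.log_nonpos
    · have : 0 < 1 - ε := by linarith
      positivity
    · nlinarith [sq_nonneg (2 * ε - 1)]
  have b8 : Real.log 4 = 2 * Real.log 2 := by
    rw [show (4:ℝ) = 2 ^ 2 by norm_num, Real.log_pow]; norm_num
  rw [b6] at b5
  nlinarith

end ODE

section Transfer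

variable {n : ℕ}

/-- the slots of the random graph as 2-element sets -/
noncomputable def slotEquiv (n : ℕ) : EdgeSlot n ≃ HyperedgeSlot n 2 :=
  Equiv.ofBijective (fun z => ⟨z.1.toFinset, Sym2.card_toFinset_of_not_isDiag z.1 z.2⟩) (by
    constructor
    · rintro ⟨z, hz⟩ ⟨z', hz'⟩ h
      simp only [Subtype.mk.injEq] at h ⊢
      ext x
      rw [← Sym2.mem_toFinset, ← Sym2.mem_toFinset, h]
    · rintro ⟨s, hs⟩
      obtain ⟨a, b, hab, rfl⟩ := Finset.card_eq_two.1 hs
      exact ⟨⟨s(a, b), by simpa using hab⟩, by simp [Sym2.toFinset_mk_eq]⟩)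

lemma slotEquiv_coe (z : EdgeSlot n) : (slotEquiv n z).1 = z.1.toFinset := rfl

lemma adj_graphOf (ω : EdgeSlot n → Bool) (a b : Fin n) :
    (graphOf ω).Adj a b ↔ ∃ h : ¬ (s(a, b)).IsDiag, ω ⟨s(a, b), h⟩ = true := by
  unfold graphOf
  rw [SimpleGraph.fromEdgeSet_adj]
  constructor
  · rintro ⟨h, _⟩; exact h
  · rintro ⟨h, h'⟩
    exact ⟨⟨h, h'⟩, by simpa using h⟩

/-- the Boolean function on the 2-uniform hypergraph cube attached to a graph property -/
noncomputable def toFun (P : Set (SimpleGraph (Fin n))) (x : HyperedgeSlot n 2 → Bool) : Bool :=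
  haveI := Classical.decPred (· ∈ P)
  decide (graphOf (fun z => x (slotEquiv n z)) ∈ P)

lemma toFun_eq_true (P : Set (SimpleGraph (Fin n))) (x : HyperedgeSlot n 2 → Bool) :
    toFun P x = true ↔ graphOf (fun z => x (slotEquiv n z)) ∈ P := by
  unfold toFun; simp

lemma gnpProb_eq (p : ℝ) (P : Set (SimpleGraph (Fin n))) :
    gnpProb n p P = probTrue p (toFun P) := by
  classical
  unfold gnpProb probTrue
  rw [bernoulliProb_eq' p {ω : EdgeSlot n → Bool | graphOf ω ∈ P},
    bernoulliProb_eq' p {x | toFun P x = true}]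
  rw [← Equiv.sum_comp (Equiv.arrowCongr (slotEquiv n) (Equiv.refl Bool))]
  refine Finset.sum_congr rfl fun ω _ => ?_
  have h1 : (fun z => (Equiv.arrowCongr (slotEquiv n) (Equiv.refl Bool)) ω (slotEquiv n z)) = ω := by
    ext z; simp [Equiv.arrowCongr]
  have h2 : bernoulliWeight p ((Equiv.arrowCongr (slotEquiv n) (Equiv.refl Bool)) ω)
      = bernoulliWeight p ω := by
    rw [bernoulliWeight_eq, bernoulliWeight_eq, ← Equiv.prod_comp (slotEquiv n)]
    refine Finset.prod_congr rfl fun z _ => ?_
    simp [Equiv.arrowCongr]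
  simp only [Set.mem_ofPred_eq, toFun_eq_true, h1, h2]

lemma adj_relabel (σ : Equiv.Perm (Fin n)) (x : HyperedgeSlot n 2 → Bool) (a b : Fin n) :
    (graphOf (fun z => relabel σ x (slotEquiv n z))).Adj a b ↔
      (graphOf (fun z => x (slotEquiv n z))).Adj (σ a) (σ b) := by
  rw [adj_graphOf, adj_graphOf]
  have key : ∀ (h : ¬ (s(a, b)).IsDiag) (h' : ¬ (s(σ a, σ b)).IsDiag),
      relabelSlot σ (slotEquiv n ⟨s(a, b), h⟩) = slotEquiv n ⟨s(σ a, σ b), h'⟩ := by
    intro h h'
    apply Subtype.ext
    simp only [relabelSlot, slotEquiv_coe, Sym2.toFinset_mk_eq]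
    ext c
    simp
  constructor
  · rintro ⟨h, h1⟩
    have h' : ¬ (s(σ a, σ b)).IsDiag := by
      simp only [Sym2.mk_isDiag_iff] at h ⊢
      exact fun e => h (σ.injective e)
    refine ⟨h', ?_⟩
    rw [← key h h']; exact h1
  · rintro ⟨h', h1⟩
    have h : ¬ (s(a, b)).IsDiag := by
      simp only [Sym2.mk_isDiag_iff] at h' ⊢
      exact fun e => h' (by rw [e])
    refine ⟨h, ?_⟩
    unfold relabel
    rw [key h h']; exact h1

lemma isSymmetric_toFun (P : Set (SimpleGraph (Fin n)))
    (hsymm : ∀ σ : Equiv.Perm (Fin n), ∀ G : SimpleGraph (Fin n), G ∈ P → G.map σ.toEmbedding ∈ P) :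
    IsSymmetric (toFun P) := by
  intro σ x
  rw [Bool.eq_iff_iff, toFun_eq_true, toFun_eq_true]
  set G' := graphOf (fun z => relabel σ x (slotEquiv n z)) with hG'
  set G := graphOf (fun z => x (slotEquiv n z)) with hG
  have hadj : ∀ a b, G'.Adj a b ↔ G.Adj (σ a) (σ b) := adj_relabel σ x
  have e1 : G'.map σ.toEmbedding = G := by
    ext a b
    rw [SimpleGraph.map_adj]
    constructor
    · rintro ⟨u, v, h, rfl, rfl⟩; exact (hadj u v).1 h
    · intro h
      refine ⟨σ.symm a, σ.symm b, ?_, by simp, by simp⟩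
      rw [hadj]; simpa using h
  have e2 : G.map (σ⁻¹ : Equiv.Perm (Fin n)).toEmbedding = G' := by
    ext a b
    rw [SimpleGraph.map_adj]
    constructor
    · rintro ⟨u, v, h, rfl, rfl⟩; rw [hadj]; simpa using h
    · intro h
      refine ⟨σ a, σ b, (hadj a b).1 h, by simp, by simp⟩
  constructor
  · intro h; rw [← e1]; exact hsymm σ G' h
  · intro h; rw [← e2]; exact hsymm σ⁻¹ G h

lemma graphOf_mono {ω ω' : EdgeSlot n → Bool} (h : ∀ z, ω z = true → ω' z = true) :
    graphOf ω ≤ graphOf ω' := by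
  intro a b
  rw [adj_graphOf, adj_graphOf]
  rintro ⟨h1, h2⟩; exact ⟨h1, h _ h2⟩

lemma mono_toFun (P : Set (SimpleGraph (Fin n)))
    (hmono : ∀ G G' : SimpleGraph (Fin n), G ≤ G' → G ∈ P → G' ∈ P) : Mono (toFun P) := by
  intro i ω
  rw [toFun_eq_true, toFun_eq_true]
  apply hmono
  apply graphOf_mono
  intro z
  by_cases h : slotEquiv n z = i
  · simp [h]
  · simp [Function.update_of_ne h]

end Transfer

/-- S0077 from the influence inequality for `n`. -/
theorem s0077_of_influence (n : ℕ) (hn : 2 ≤ n)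
    (H : ∀ p : ℝ, 0 < p → p < 1 → ∀ f : (HyperedgeSlot n 2 → Bool) → Bool, IsSymmetric f →
      probTrue p f * (1 - probTrue p f) ≤ 2 ^ 17 / Real.log n ^ 2 * totalInfluence p f)
    (P : Set (SimpleGraph (Fin n)))
    (hsymm : ∀ σ : Equiv.Perm (Fin n), ∀ G : SimpleGraph (Fin n), G ∈ P → G.map σ.toEmbedding ∈ P)
    (hmono : ∀ G G' : SimpleGraph (Fin n), G ≤ G' → G ∈ P → G' ∈ P)
    (ε : ℝ) (hε0 : 0 < ε) (hε : ε < 1 / 2)
    (p q : ℝ) (hp0 : 0 ≤ p) (hq1 : q ≤ 1)
    (hp : ε ≤ gnpProb n p P)
    (hq : p + 2 ^ 19 / Real.log n ^ 2 * Real.log (1 / (2 * ε)) ≤ q) :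
    1 - ε ≤ gnpProb n q P := by
  have hlog : 0 < Real.log n := Real.log_pos (by exact_mod_cast hn)
  rw [gnpProb_eq] at hp ⊢
  have hK : 0 < Real.log n ^ 2 / 2 ^ 17 := by positivity
  refine ode_step (fun t => probTrue t (toFun P)) (fun t => totalInfluence t (toFun P))
    (Real.log n ^ 2 / 2 ^ 17) ε p q hK hε0 hε hp0 hq1 ?_ ?_ ?_ hp ?_
  · intro t; exact hasDerivAt_mu t (toFun P) (mono_toFun P hmono)
  · intro t h0 h1
    exact Finset.sum_nonneg fun i _ => inf_nonneg h0.le h1.le (toFun P) i
  · intro t h0 h1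
    have h := H t h0 h1 (toFun P) (isSymmetric_toFun P hsymm)
    have e : 1 / (Real.log n ^ 2 / 2 ^ 17) = 2 ^ 17 / Real.log n ^ 2 := by
      rw [one_div_div]
    rw [e]; exact h
  · have e : 4 / (Real.log n ^ 2 / 2 ^ 17) = 2 ^ 19 / Real.log n ^ 2 := by
      field_simp; norm_num
    rw [e]; exact hq

end Crest.Agent.R056.Russo
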